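import Vale.Agent.P192.H479.RL0b
import Vale.Agent.P192.H567.CtUnif

/-!
# P192: two factors and counters

`thr : Vale.Agent.P192.H479.Thr`, from `ct_uniform`.
-/

namespace Vale.Agent.P192.H823

open Vale.Agent.P192.H567 in
/-- **Two factors and counters (`TreeProducts (1)`).** -/
theorem thr : Vale.Agent.P192.H479.Thr := by
  classical
  rintro G _ _ hG M₀ hgen hinv L M _ _ hL ⟨Γ, k₀, hΓ, ⟨e⟩⟩ U V _ _ hU hV k W T ρ KL KZ KM
    hKL hKZ hKM m c β _ b h
  let KK : Set (L × (Fin k → ℤ) × M) := insert (1, 0, 1) (KL ×ˢ (KZ ×ˢ KM))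
  have hKK : KK.Finite := (hKL.prod (hKZ.prod hKM)).insert _
  have hΓ' : Γ.FiniteIndex := hΓ
  let n : ℕ := m + Nat.card β
  let e₁ : Fin m → Fin n := Fin.castAdd (Nat.card β)
  let e₂ : β → Fin n := fun j => Fin.natAdd m (Finite.equivFin β j)
  have he₁ : Function.Injective e₁ := Fin.castAdd_injective _ _
  have he₂ : Function.Injective e₂ := (Fin.natAdd_injective _ _).comp (Finite.equivFin β).injective
  obtain ⟨N, -, hN2, hN3⟩ := ct_uniform G hG M₀ hgen L M hL Γ k₀ e k n KK hKK
  have key := hN3 U V W T hU hV ρ (by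
    intro s hs
    have hs' : s ∈ M₀ := by
      rcases hs with hs | hs
      · exact hs
      · rw [← inv_inv s]
        exact hinv _ hs
    choose l hl z hz x hx hlx using h s hs'
    let f : U → (Fin k → Fin n) → Fin n → L × (Fin k → ℤ) × M := fun u α' j' =>
      if hd : ∃ p : (Fin k → Fin m) × β, (∀ i, e₁ (p.1 i) = α' i) ∧ e₂ p.2 = j' then
        (l u hd.choose.1 hd.choose.2, z u hd.choose.1 hd.choose.2, x u hd.choose.1 hd.choose.2)
      else (1, 0, 1)
    refine ⟨fun i v => e₁ (c i v), fun v => e₂ (b v), f, ?_, ?_⟩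
    · intro u α' j'
      by_cases hd : ∃ p : (Fin k → Fin m) × β, (∀ i, e₁ (p.1 i) = α' i) ∧ e₂ p.2 = j'
      · have h1 : f u α' j' = (l u hd.choose.1 hd.choose.2, z u hd.choose.1 hd.choose.2,
            x u hd.choose.1 hd.choose.2) := dif_pos hd
        rw [h1]
        exact Or.inr ⟨hl _ _ _, hz _ _ _, hx _ _ _⟩
      · have h1 : f u α' j' = (1, 0, 1) := dif_neg hd
        rw [h1]
        exact Or.inl rfl
    · intro u w v
      have hd : ∃ p : (Fin k → Fin m) × β,
          (∀ i, e₁ (p.1 i) = (fun i => e₁ (c i (w i))) i) ∧ e₂ p.2 = e₂ (b v) :=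
        ⟨(fun i => c i (w i), b v), fun i => rfl, rfl⟩
      have h1 : f u (fun i => e₁ (c i (w i))) (e₂ (b v)) =
          (l u hd.choose.1 hd.choose.2, z u hd.choose.1 hd.choose.2,
            x u hd.choose.1 hd.choose.2) := dif_pos hd
      rw [h1]
      have h2 : ∀ i, c i (w i) = hd.choose.1 i := fun i => (he₁ (hd.choose_spec.1 i)).symm
      have h3 : b v = hd.choose.2 := (he₂ hd.choose_spec.2).symm
      exact hlx u hd.choose.1 hd.choose.2 w v h2 h3)
  have hle : N ≤ ρ.ker := fun g hg => key g hg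
  have h1 : ρ.ker.FiniteIndex := Subgroup.finiteIndex_of_le hle
  have h2 : Finite (G ⧸ ρ.ker) := Subgroup.finite_quotient_of_finiteIndex
  exact Finite.of_equiv _ (QuotientGroup.quotientKerEquivRange ρ).toEquiv

end Vale.Agent.P192.H823
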