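import Mathlib

/-!
# P192: isometric rectangle exchanges modulo lines: germs and frames

Points of the plane are functions `Bool → ℝ`. A frame is `(a, e, p)`: `p` a point, `e b` the
direction of the germ along the axis `b`, `a` the axis of the first germ.
-/

namespace Vale.Agent.P192.H823

open Filter Topology

/-- the sign of a direction -/
noncomputable def sg (e : Bool) : ℝ := if e then -1 else 1

theorem sg_xor (x y : Bool) : sg (xor x y) = sg x * sg y := by
  cases x <;> cases y <;> simp [sg]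

theorem sg_mul_self (x : Bool) : sg x * sg x = 1 := by
  cases x <;> simp [sg]

theorem sg_inj {x y : Bool} (h : sg x = sg y) : x = y := by
  cases x <;> cases y <;> simp [sg] at h ⊢ <;> norm_num at h

/-- `x` is below the germ at `p` with direction `e` -/
def lt (x : ℝ) (e : Bool) (p : ℝ) : Prop := if e then x < p else x ≤ p

theorem ev_germ (p : ℝ) (e : Bool) (x : ℝ) :
    ∀ᶠ t in 𝓝[>] (0 : ℝ), p + sg e * t ≠ x ∧ (x < p + sg e * t ↔ lt x e p) := by
  rcases lt_trichotomy x p with h | h | h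
  · have h1 : ∀ᶠ t in 𝓝[>] (0 : ℝ), t < p - x :=
      mem_nhdsWithin_of_mem_nhds (Iio_mem_nhds (by linarith))
    filter_upwards [h1, self_mem_nhdsWithin] with t ht ht0
    have ht0 : 0 < t := ht0
    have h2 : x < p + sg e * t := by
      cases e
      · simp only [sg, Bool.false_eq_true, if_false]; linarith
      · simp only [sg, if_true]; linarith
    refine ⟨h2.ne', iff_of_true h2 ?_⟩
    cases e
    · simp only [lt, Bool.false_eq_true, if_false]; exact h.le
    · simp only [lt, if_true]; exact h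
  · subst h
    filter_upwards [self_mem_nhdsWithin] with t ht0
    have ht0 : 0 < t := ht0
    cases e
    · simp only [lt, sg, Bool.false_eq_true, if_false]
      refine ⟨by linarith, iff_of_true (by linarith) le_rfl⟩
    · simp only [lt, sg, if_true]
      refine ⟨by linarith, iff_of_false (by linarith) (lt_irrefl _)⟩
  · have h1 : ∀ᶠ t in 𝓝[>] (0 : ℝ), t < x - p :=
      mem_nhdsWithin_of_mem_nhds (Iio_mem_nhds (by linarith))
    filter_upwards [h1, self_mem_nhdsWithin] with t ht ht0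
    have ht0 : 0 < t := ht0
    have h2 : p + sg e * t < x := by
      cases e
      · simp only [sg, Bool.false_eq_true, if_false]; linarith
      · simp only [sg, if_true]; linarith
    refine ⟨h2.ne, iff_of_false (not_lt.2 h2.le) ?_⟩
    cases e
    · simp only [lt, Bool.false_eq_true, if_false]; exact not_le.2 h
    · simp only [lt, if_true]; exact not_lt.2 h.le

/-- frames -/
abbrev Fr : Type := Bool × (Bool → Bool) × (Bool → ℝ)

/-- the point with distances `d` from the frame -/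
noncomputable def pt (F : Fr) (d : ℝ × ℝ) : Bool → ℝ :=
  fun b => F.2.2 b + sg (F.2.1 b) * (if b = F.1 then d.1 else d.2)

/-- small positive distances -/
abbrev sm : Filter (ℝ × ℝ) := 𝓝[>] (0 : ℝ) ×ˢ 𝓝[>] (0 : ℝ)

theorem ev_pt (F : Fr) {B : Set ℝ} (hB : B.Finite) :
    ∀ᶠ d in sm, ∀ b, pt F d b ∉ B ∧ ∀ x ∈ B, (x < pt F d b ↔ lt x (F.2.1 b) (F.2.2 b)) := by
  rw [eventually_all]
  intro b
  have h1 : ∀ᶠ t in 𝓝[>] (0 : ℝ), ∀ x ∈ B, F.2.2 b + sg (F.2.1 b) * t ≠ x ∧
      (x < F.2.2 b + sg (F.2.1 b) * t ↔ lt x (F.2.1 b) (F.2.2 b)) :=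
    (eventually_all_finite hB).2 fun x _ => ev_germ _ _ _
  by_cases hb : b = F.1
  · filter_upwards [tendsto_fst.eventually h1] with d hd
    unfold pt
    rw [if_pos hb]
    exact ⟨fun h => (hd _ h).1 rfl, fun x hx => (hd x hx).2⟩
  · filter_upwards [tendsto_snd.eventually h1] with d hd
    unfold pt
    rw [if_neg hb]
    exact ⟨fun h => (hd _ h).1 rfl, fun x hx => (hd x hx).2⟩

/-- the open rectangle -/
def Dom (l : Bool → ℝ) (z : Bool → ℝ) : Prop := ∀ b, 0 < z b ∧ z b < l b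

/-- the frames of the rectangle -/
def Vf (l : Bool → ℝ) (F : Fr) : Prop :=
  ∀ b, lt 0 (F.2.1 b) (F.2.2 b) ∧ ¬ lt (l b) (F.2.1 b) (F.2.2 b)

theorem ev_dom_iff (l : Bool → ℝ) (F : Fr) : ∀ᶠ d in sm, (Dom l (pt F d) ↔ Vf l F) := by
  filter_upwards [ev_pt F (B := {0, l false, l true}) (by simp)] with d hd
  refine forall_congr' fun b => ?_
  have h1 := (hd b).2 0 (by simp)
  have h2 : l b ∈ ({0, l false, l true} : Set ℝ) := by cases b <;> simp
  have h3 := (hd b).2 (l b) h2
  rw [h1, ← h3, not_lt, and_congr_right_iff]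
  intro _
  refine ⟨le_of_lt, fun h => lt_of_le_of_ne h ?_⟩
  intro h4
  exact (hd b).1 (h4 ▸ h2)

theorem ev_dom {l : Bool → ℝ} {F : Fr} (hF : Vf l F) : ∀ᶠ d in sm, Dom l (pt F d) := by
  filter_upwards [ev_dom_iff l F] with d hd
  exact hd.2 hF

theorem vf_of_ev {l : Bool → ℝ} {F : Fr} (h : ∀ᶠ d in sm, Dom l (pt F d)) : Vf l F := by
  obtain ⟨d, h1, h2⟩ := (h.and (ev_dom_iff l F)).exists
  exact h2.1 h1

theorem ev_D {P : ℝ × ℝ → Prop} (h : ∀ᶠ d in sm, P d) :
    ∃ D : ℝ, 0 < D ∧ ∀ s t, 0 < s → s < D → 0 < t → t < D → P (s, t) := by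
  obtain ⟨p, hp, q, hq, h1⟩ := eventually_prod_iff.1 h
  obtain ⟨u, hu, hu'⟩ := mem_nhdsGT_iff_exists_Ioo_subset.1 hp
  obtain ⟨v, hv, hv'⟩ := mem_nhdsGT_iff_exists_Ioo_subset.1 hq
  refine ⟨min u v, lt_min hu hv, fun s t hs hs' ht ht' => h1 ?_ ?_⟩
  · exact hu' ⟨hs, lt_of_lt_of_le hs' (min_le_left _ _)⟩
  · exact hv' ⟨ht, lt_of_lt_of_le ht' (min_le_right _ _)⟩

theorem pt_inj {F F' : Fr} (h : ∀ᶠ d in sm, pt F d = pt F' d) : F = F' := by
  obtain ⟨D, hD, h1⟩ := ev_D h
  have h2 : ∀ s t, 0 < s → s < D → 0 < t → t < D → ∀ b,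
      F.2.2 b + sg (F.2.1 b) * (if b = F.1 then s else t) =
      F'.2.2 b + sg (F'.2.1 b) * (if b = F'.1 then s else t) :=
    fun s t hs hs' ht ht' b => congrFun (h1 s t hs hs' ht ht') b
  have hsg : ∀ e, sg e = 1 ∨ sg e = -1 := by
    intro e; cases e <;> simp [sg]
  have ha : F.1 = F'.1 := by
    by_contra hne
    have h3 := h2 (D / 2) (D / 2) (by linarith) (by linarith) (by linarith) (by linarith) F.1
    have h4 := h2 (D / 4) (D / 2) (by linarith) (by linarith) (by linarith) (by linarith) F.1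
    rw [if_pos rfl, if_neg hne] at h3 h4
    rcases hsg (F.2.1 F.1) with h5 | h5 <;> rw [h5] at h3 h4 <;> linarith
  have hb : ∀ b, F.2.2 b = F'.2.2 b ∧ F.2.1 b = F'.2.1 b := by
    intro b
    have h3 := h2 (D / 2) (D / 2) (by linarith) (by linarith) (by linarith) (by linarith) b
    have h4 := h2 (D / 4) (D / 4) (by linarith) (by linarith) (by linarith) (by linarith) b
    rw [ite_self, ite_self] at h3 h4
    have h5 : (sg (F.2.1 b) - sg (F'.2.1 b)) * D = 0 := by linarith
    have h6 : sg (F.2.1 b) = sg (F'.2.1 b) := by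
      rcases mul_eq_zero.1 h5 with h7 | h7
      · linarith
      · exact absurd h7 hD.ne'
    refine ⟨?_, sg_inj h6⟩
    rw [h6] at h3
    linarith
  obtain ⟨a, e, p⟩ := F
  obtain ⟨a', e', p'⟩ := F'
  have ha : a = a' := ha
  have he : e = e' := funext fun b => (hb b).2
  have hp : p = p' := funext fun b => (hb b).1
  rw [ha, he, hp]

/-- isometries of the plane which preserve the directions of the axes: exchange of the axes,
reflections, translation -/
structure Fm where
  σ : Bool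
  ε : Bool → Bool
  s : Bool → ℝ

namespace Fm

/-- the value at a point -/
noncomputable def ap (φ : Fm) (z : Bool → ℝ) : Bool → ℝ :=
  fun b => sg (φ.ε b) * z (xor b φ.σ) + φ.s b

/-- the value at a frame -/
noncomputable def fr (φ : Fm) (F : Fr) : Fr :=
  (xor F.1 φ.σ, fun b => xor (φ.ε b) (F.2.1 (xor b φ.σ)),
    fun b => sg (φ.ε b) * F.2.2 (xor b φ.σ) + φ.s b)

theorem ap_pt (φ : Fm) (F : Fr) (d : ℝ × ℝ) : φ.ap (pt F d) = pt (φ.fr F) d := by
  funext b
  have h1 : (xor b φ.σ = F.1) ↔ (b = xor F.1 φ.σ) := by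
    cases b <;> cases φ.σ <;> cases F.1 <;> simp
  change sg (φ.ε b) * (F.2.2 (xor b φ.σ) + sg (F.2.1 (xor b φ.σ)) *
    (if xor b φ.σ = F.1 then d.1 else d.2)) + φ.s b =
    (sg (φ.ε b) * F.2.2 (xor b φ.σ) + φ.s b) + sg (xor (φ.ε b) (F.2.1 (xor b φ.σ))) *
    (if b = xor F.1 φ.σ then d.1 else d.2)
  rw [sg_xor]
  by_cases h : b = xor F.1 φ.σ
  · rw [if_pos h, if_pos (h1.2 h)]
    ring
  · rw [if_neg h, if_neg (fun h2 => h (h1.1 h2))]
    ring

end Fm

end Vale.Agent.P192.H823
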