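import Vale.Agent.P192.H823.Flip0

/-!
# P192: isometric rectangle exchanges modulo lines: the action on frames
-/

namespace Vale.Agent.P192.H823

open Filter Topology

/-- isometric rectangle exchanges: on the products of two open bands between breakpoints `B` the
map is an isometry which preserves the directions of the axes -/
def Ire (l : Bool → ℝ) (B : Set ℝ) (f : (Bool → ℝ) → Bool → ℝ) : Prop :=
  ∀ z, Dom l z → (∀ b, z b ∉ B) → Dom l (f z) ∧ ∃ φ : Fm, ∀ z', Dom l z' → (∀ b, z' b ∉ B) →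
    (∀ b, ∀ x ∈ B, x < z b ↔ x < z' b) → f z' = φ.ap z'

/-- actions by isometric rectangle exchanges modulo lines -/
structure Sys (G : Type) [Group G] where
  l : Bool → ℝ
  ρ : G → (Bool → ℝ) → Bool → ℝ
  B : G → Set ℝ
  fB : ∀ g, (B g).Finite
  ire : ∀ g, Ire l (B g) (ρ g)
  one : ∃ C : Set ℝ, C.Finite ∧ ∀ z, Dom l z → (∀ b, z b ∉ C) → ρ 1 z = z
  mul : ∀ g h, ∃ C : Set ℝ, C.Finite ∧ ∀ z, Dom l z → (∀ b, z b ∉ C) → ρ (g * h) z = ρ g (ρ h z)

namespace Sys

variable {G : Type} [Group G] (S : Sys G)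

/-- the frame `F` goes to the frame `F'` -/
def St (g : G) (F F' : Fr) : Prop := ∀ᶠ d in sm, S.ρ g (pt F d) = pt F' d

theorem st_unique {g : G} {F F' F'' : Fr} (h : S.St g F F') (h' : S.St g F F'') : F' = F'' := by
  refine pt_inj ?_
  filter_upwards [h, h'] with d h1 h2
  rw [← h1, ← h2]

/-- two frames in the same band have a common isometry -/
theorem exists_fm (g : G) {F : Fr} (hF : Vf S.l F) :
    ∃ φ : Fm, ∀ F', Vf S.l F' →
      (∀ b, ∀ x ∈ S.B g, lt x (F.2.1 b) (F.2.2 b) ↔ lt x (F'.2.1 b) (F'.2.2 b)) →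
      S.St g F' (φ.fr F') ∧ Vf S.l (φ.fr F') := by
  obtain ⟨d, h1, h2⟩ := ((ev_dom hF).and (ev_pt F (S.fB g))).exists
  obtain ⟨-, φ, hφ⟩ := S.ire g (pt F d) h1 (fun b => (h2 b).1)
  refine ⟨φ, fun F' hF' hb => ?_⟩
  have h3 : S.St g F' (φ.fr F') := by
    filter_upwards [ev_dom hF', ev_pt F' (S.fB g)] with d' h4 h5
    rw [← φ.ap_pt]
    refine hφ _ h4 (fun b => (h5 b).1) (fun b x hx => ?_)
    rw [(h2 b).2 x hx, (h5 b).2 x hx, hb b x hx]
  refine ⟨h3, vf_of_ev ?_⟩
  filter_upwards [h3, ev_dom hF', ev_pt F' (S.fB g)] with d' h4 h5 h6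
  rw [← h4]
  exact (S.ire g (pt F' d') h5 (fun b => (h6 b).1)).1

theorem exists_st (g : G) {F : Fr} (hF : Vf S.l F) : ∃ F', Vf S.l F' ∧ S.St g F F' := by
  obtain ⟨φ, hφ⟩ := S.exists_fm g hF
  obtain ⟨h1, h2⟩ := hφ F hF (fun b x _ => Iff.rfl)
  exact ⟨_, h2, h1⟩

theorem st_one {F : Fr} (hF : Vf S.l F) : S.St 1 F F := by
  obtain ⟨C, hC, h⟩ := S.one
  filter_upwards [ev_dom hF, ev_pt F hC] with d h1 h2
  exact h _ h1 (fun b => (h2 b).1)

theorem st_mul {g h : G} {F F' F'' : Fr} (hF : Vf S.l F) (h1 : S.St h F F')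
    (h2 : S.St g F' F'') : S.St (g * h) F F'' := by
  obtain ⟨C, hC, h3⟩ := S.mul g h
  filter_upwards [ev_dom hF, ev_pt F hC, h1, h2] with d h4 h5 h6 h7
  rw [h3 _ h4 (fun b => (h5 b).1), h6, h7]

open Classical in
/-- the action on the frames -/
noncomputable def nx (g : G) (F : Fr) : Fr :=
  if h : Vf S.l F then (S.exists_st g h).choose else F

theorem nx_spec (g : G) {F : Fr} (hF : Vf S.l F) : Vf S.l (S.nx g F) ∧ S.St g F (S.nx g F) := by
  unfold nx
  rw [dif_pos hF]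
  exact (S.exists_st g hF).choose_spec

theorem nx_eq {g : G} {F F' : Fr} (hF : Vf S.l F) (h : S.St g F F') : S.nx g F = F' :=
  S.st_unique (S.nx_spec g hF).2 h

theorem nx_one {F : Fr} (hF : Vf S.l F) : S.nx 1 F = F := S.nx_eq hF (S.st_one hF)

theorem nx_mul (g h : G) {F : Fr} (hF : Vf S.l F) : S.nx (g * h) F = S.nx g (S.nx h F) :=
  S.nx_eq hF (S.st_mul hF (S.nx_spec h hF).2 (S.nx_spec g (S.nx_spec h hF).1).2)

/-- trivial on frames implies trivial off finitely many lines -/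
theorem eq_of_nx {g : G} (h : ∀ F, Vf S.l F → S.nx g F = F) :
    ∀ z, Dom S.l z → (∀ b, z b ∉ S.B g) → S.ρ g z = z := by
  intro z hz hzB
  let F : Fr := (false, fun _ => false, z)
  have hF : Vf S.l F := by
    intro b
    have h1 := hz b
    refine ⟨?_, ?_⟩
    · change lt 0 false (z b)
      simp only [lt, Bool.false_eq_true, if_false]
      exact h1.1.le
    · change ¬ lt (S.l b) false (z b)
      simp only [lt, Bool.false_eq_true, if_false, not_le]
      exact h1.2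
  obtain ⟨-, φ, hφ⟩ := S.ire g z hz hzB
  have h3 : S.St g F (φ.fr F) := by
    filter_upwards [ev_dom hF, ev_pt F (S.fB g)] with d' h4 h5
    rw [← φ.ap_pt]
    refine hφ _ h4 (fun b => (h5 b).1) (fun b x hx => ?_)
    rw [(h5 b).2 x hx]
    change x < z b ↔ lt x false (z b)
    simp only [lt, Bool.false_eq_true, if_false]
    refine ⟨le_of_lt, fun h6 => lt_of_le_of_ne h6 ?_⟩
    intro h7
    exact hzB b (h7 ▸ hx)
  have h4 : φ.fr F = F := by
    rw [← S.nx_eq hF h3]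
    exact h F hF
  rw [hφ z hz hzB (fun b x _ => Iff.rfl)]
  have h5 : ∀ d, pt F d = φ.ap (pt F d) := by
    intro d
    rw [φ.ap_pt, h4]
  have h6 : pt F (0, 0) = z := by
    funext b
    change z b + sg false * (if b = false then (0 : ℝ) else 0) = z b
    rw [ite_self, mul_zero, add_zero]
  rw [← h6, ← h5]

end Sys

end Vale.Agent.P192.H823
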