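import Vale.Agent.P192.H823.Flip4
import Vale.Agent.P192.H479.RL13

/-!
# P192: piecewise isometries of the plane modulo lines
-/

namespace Vale.Agent.P192.H823

open Vale.Agent.P192.H479 (Same)

theorem twoLine : TwoLine := by
  intro G _ _ hG S hS k W T ρ hρ
  exact H479.main_two_line G hG S hS k W T ρ hρ

/-- **Piecewise isometries of the plane modulo lines.** -/
theorem plane (G : Type) [Group G] [Group.IsFinitelyPresented G]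
    (hG : ∀ x : G, IsOfFinOrder x) (ρ : G → ℝ × ℝ → ℝ × ℝ)
    (hρ : ∀ g, ∃ B : Finset ℝ, ∀ z : ℝ × ℝ, z.1 ∉ B → z.2 ∉ B →
      ∃ ε δ s t : ℝ, |ε| = 1 ∧ |δ| = 1 ∧
        ((∀ z' : ℝ × ℝ, z'.1 ∉ B → z'.2 ∉ B → Same B z.1 z'.1 → Same B z.2 z'.2 →
          ρ g z' = (ε * z'.1 + s, δ * z'.2 + t)) ∨
        (∀ z' : ℝ × ℝ, z'.1 ∉ B → z'.2 ∉ B → Same B z.1 z'.1 → Same B z.2 z'.2 →
          ρ g z' = (ε * z'.2 + s, δ * z'.1 + t))))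
    (hone : ∃ B : Finset ℝ, ∀ z : ℝ × ℝ, z.1 ∉ B → z.2 ∉ B → ρ 1 z = z)
    (hmul : ∀ g h, ∃ B : Finset ℝ, ∀ z : ℝ × ℝ, z.1 ∉ B → z.2 ∉ B → ρ (g * h) z = ρ g (ρ h z)) :
    ∃ N : Subgroup G, N.Normal ∧ N.FiniteIndex ∧ ∀ g ∈ N, ∃ B : Finset ℝ,
      ∀ z : ℝ × ℝ, z.1 ∉ B → z.2 ∉ B → ρ g z = z :=
  flip_plane twoLine G hG ρ hρ hone hmul

end Vale.Agent.P192.H823
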