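import Vale.Agent.P192.H823.Flip9
import Vale.Agent.P192.H823.Flip5
import Vale.Agent.P192.H663.Calc

/-!
# P192: piecewise isometries of the plane times counters
-/

namespace Vale.Agent.P192.H823

open Vale.Agent.P192.RL5 Vale.Agent.P192.H237
open Vale.Agent.P192.H479 (Cell)

theorem cell_mono {B B' : Finset ℝ} (h : B ⊆ B') {x x' : ℝ} (hx : Cell B' x x') : Cell B x x' :=
  fun b hb => hx b (h hb)

theorem cell_symm {B : Finset ℝ} {x x' : ℝ} (hx : Cell B x x') : Cell B x' x :=
  fun b hb => ⟨(hx b hb).1.symm, (hx b hb).2.symm⟩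

theorem abs_sg (e : Bool) : |sg e| = 1 := by cases e <;> simp [sg]

/-- **The plane times counters, in terms of pieces.** -/
theorem two_fin {G : Type} [Group G] [Group.IsFinitelyPresented G]
    (hG : ∀ x : G, IsOfFinOrder x) (S : Set G) (hS : Subgroup.closure S = ⊤)
    {k : ℕ} {W : Fin k → Type} (T : ∀ i, Equiv.Perm (W i))
    (ρ : G →* Equiv.Perm ((Bool → ℝ) × (∀ i, W i))) (h : ∀ s ∈ S, (regPW T).Pw (ρ s)) :
    Finite ρ.range := by
  classical
  obtain ⟨hall, N, -, hN2, hN3⟩ := two_data twoLine hG S hS T ρ h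
  choose m c B K hK hpt using fun g => pw_iff (hall g)
  have hNfi : N.FiniteIndex := hN2
  have hNfp : Group.IsFinitelyPresented N := fp_of_finiteIndex G N
  have hNG : ∀ x : N, IsOfFinOrder x := by
    intro x
    obtain ⟨n, hn, hx⟩ := isOfFinOrder_iff_pow_eq_one.1 (hG x)
    exact isOfFinOrder_iff_pow_eq_one.2 ⟨n, hn, Subtype.ext hx⟩
  obtain ⟨M, hMf, -, -, hMgen, -⟩ := H260.exists_table N
  choose BN hBN using fun g : N => hN3 g.1 g.2
  let B' : Finset ℝ := hMf.toFinset.biUnion BN
  have hfix : ∀ v : (Bool → ℝ) × (∀ i, W i), ¬ OnL B' v → ∀ g : N, ρ g v = v := by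
    intro v hv
    refine H479.gen_induct hMgen ?_ ?_ ?_ ?_
    · intro a ha
      refine hBN a v (fun b hb => hv ⟨b, ?_⟩)
      exact Finset.mem_biUnion.2 ⟨a, (Set.Finite.mem_toFinset _).2 ha, hb⟩
    · rw [Subgroup.coe_one, map_one]
      rfl
    · intro a b ha hb
      rw [Subgroup.coe_mul, map_mul, Equiv.Perm.mul_apply, hb, ha]
    · intro a ha
      rw [Subgroup.coe_inv]
      conv_lhs => rw [← ha]
      rw [← Equiv.Perm.mul_apply, ← map_mul, inv_mul_cancel, map_one]
      rfl
  have hZ : ∀ (g : N) (v : (Bool → ℝ) × (∀ i, W i)), OnL B' (ρ g v) ↔ OnL B' v := by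
    intro g v
    constructor
    · intro h1
      by_contra h2
      rw [hfix v h2 g] at h1
      exact h2 h1
    · intro h1
      by_contra h2
      have h3 := hfix _ h2 g
      have h4 := (ρ g).injective h3
      rw [h4] at h2
      exact h2 h1
  let σ : N →* Equiv.Perm {v : (Bool → ℝ) × (∀ i, W i) // OnL B' v} :=
    { toFun := fun g => (ρ g).subtypePerm (hZ g)
      map_one' := by
        apply Equiv.ext
        intro v
        apply Subtype.ext
        change ρ ((1 : N) : G) v.1 = v.1
        rw [Subgroup.coe_one, map_one]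
        rfl
      map_mul' := by
        intro a b
        apply Equiv.ext
        intro v
        apply Subtype.ext
        change ρ ((a * b : N) : G) v.1 = ρ a (ρ b v.1)
        rw [Subgroup.coe_mul, map_mul]
        rfl }
  let Ψ : N →* Equiv.Perm ((Bool × B') × (∀ i, W i) × ℝ) :=
    (Equiv.Perm.extendDomainHom (lnE B')).comp σ
  have hΨin : ∀ (g : N) (u : (Bool × B') × (∀ i, W i) × ℝ) (hu : Vc B' u),
      ∃ hy, Ψ g u = (kj B' (ρ g (io B' u)).1 hy, (ρ g (io B' u)).2, kt B' (ρ g (io B' u)).1) := by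
    intro g u hu
    have h1 : (lnE B' ((lnE B').symm ⟨u, hu⟩)).1 = u := by
      rw [Equiv.apply_symm_apply]
    have h2 : Ψ g u = (lnE B' (σ g ((lnE B').symm ⟨u, hu⟩))).1 := by
      have h3 := Equiv.Perm.extendDomain_apply_image (σ g) (lnE B') ((lnE B').symm ⟨u, hu⟩)
      rw [h1] at h3
      exact h3
    exact ⟨(σ g ((lnE B').symm ⟨u, hu⟩)).2, h2⟩
  have hΨout : ∀ (g : N) (u : (Bool × B') × (∀ i, W i) × ℝ), ¬ Vc B' u → Ψ g u = u :=
    fun g u hu => Equiv.Perm.extendDomain_apply_not_subtype (σ g) (lnE B') hu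
  have hfin : Finite Ψ.range := by
    refine iso_one_fin N hNG Set.univ Subgroup.closure_univ (Bool × B') k W T Ψ ?_
    intro g _
    let B2 : Finset ℝ := (B g ∪ B') ∪ (hK g).toFinset.biUnion (fun q =>
      (Finset.univ : Finset Bool).biUnion (fun b => B'.image (fun x =>
        sg (q.1.ε b) * (x - q.1.s b))))
    have hB21 : B g ⊆ B2 := fun x hx => Finset.mem_union_left _ (Finset.mem_union_left _ hx)
    have hB22 : B' ⊆ B2 := fun x hx => Finset.mem_union_left _ (Finset.mem_union_right _ hx)
    have hB23 : ∀ q ∈ K g, ∀ b, ∀ x ∈ B', sg (q.1.ε b) * (x - q.1.s b) ∈ B2 := by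
      intro q hq b x hx
      refine Finset.mem_union_right _ (Finset.mem_biUnion.2 ⟨q, (Set.Finite.mem_toFinset _).2 hq, ?_⟩)
      exact Finset.mem_biUnion.2 ⟨b, Finset.mem_univ _, Finset.mem_image_of_mem _ hx⟩
    refine ⟨m g, c g, B2, ?_⟩
    rintro ⟨a, β⟩ w t
    by_cases hV : Vc B' ((a, β), w, t)
    · obtain ⟨q, hq, h1⟩ := hpt g (io B' ((a, β), w, t))
      have hcell : ∀ w' : ∀ i, W i, (∀ i, c g i (w i) = c g i (w' i)) → ∀ t', Cell B2 t t' →
          ρ g (io B' ((a, β), w', t')) =
            (q.1.ap (io B' ((a, β), w', t')).1, fun i => (T i ^ q.2 i) (w' i)) := by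
        intro w' hw' t' ht'
        refine h1 _ (fun b => ?_) hw'
        change Cell (B g) (if b = a then (β : ℝ) else t) (if b = a then (β : ℝ) else t')
        by_cases hb : b = a
        · rw [if_pos hb, if_pos hb]
          exact cell_refl _ _
        · rw [if_neg hb, if_neg hb]
          exact cell_mono hB21 ht'
      have hVc : ∀ (w' : ∀ i, W i) (t' : ℝ), Cell B2 t t' → Vc B' ((a, β), w', t') := by
        intro w' t' ht' ha ht2
        have h2 := cell_eq_of_mem (cell_symm ht') (hB22 ht2)
        rw [← h2] at ht2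
        exact hV ha ht2
      by_cases ht : t ∈ B2
      · let y : Bool → ℝ := q.1.ap (io B' ((a, β), w, t)).1
        have hy : ∃ b, y b ∈ B' := by
          have h2 : OnL B' (ρ g (io B' ((a, β), w, t))) := by
            rw [hZ g]
            exact ((lnE B').symm ⟨_, hV⟩).2
          rw [hcell w (fun _ => rfl) t (cell_refl _ _)] at h2
          exact h2
        refine ⟨q.2, 1, kt B' y - t, kj B' y hy, abs_one, ?_⟩
        intro w' hw' t' ht'
        have h2 := cell_eq_of_mem ht' ht
        subst h2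
        obtain ⟨hy', h3⟩ := hΨin g ((a, β), w', t') (hVc w' t' ht')
        rw [h3]
        have h4 := hcell w' hw' t' ht'
        have h5 : (ρ g (io B' ((a, β), w', t'))).1 = y := (Prod.ext_iff.1 h4).1
        have h6 : (ρ g (io B' ((a, β), w', t'))).2 = fun i => (T i ^ q.2 i) (w' i) :=
          (Prod.ext_iff.1 h4).2
        refine Prod.ext ?_ (Prod.ext h6 ?_)
        · change kj B' (ρ g (io B' ((a, β), w', t'))).1 hy' = kj B' y hy
          congr 1
        · change kt B' (ρ g (io B' ((a, β), w', t'))).1 = 1 * t' + (kt B' y - t')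
          rw [h5]
          ring
      · -- the parameter is in an open interval
        let c1 : Bool := xor a q.1.σ
        have hc1 : xor c1 q.1.σ = a := xor_xor a q.1.σ
        have hc2 : xor (!c1) q.1.σ = !a := by
          change xor (!(xor a q.1.σ)) q.1.σ = !a
          cases a <;> cases q.1.σ <;> rfl
        have hy1 : ∀ (w' : ∀ i, W i) (t' : ℝ), q.1.ap (io B' ((a, β), w', t')).1 c1 =
            sg (q.1.ε c1) * (β : ℝ) + q.1.s c1 := by
          intro w' t'
          change sg (q.1.ε c1) * (if xor c1 q.1.σ = a then (β : ℝ) else t') + q.1.s c1 = _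
          rw [if_pos hc1]
        have hy2 : ∀ (w' : ∀ i, W i) (t' : ℝ), q.1.ap (io B' ((a, β), w', t')).1 (!c1) =
            sg (q.1.ε (!c1)) * t' + q.1.s (!c1) := by
          intro w' t'
          change sg (q.1.ε (!c1)) * (if xor (!c1) q.1.σ = a then (β : ℝ) else t') +
            q.1.s (!c1) = _
          rw [hc2, if_neg (not_ne_self' a)]
        have hnot : ∀ t', Cell B2 t t' → sg (q.1.ε (!c1)) * t' + q.1.s (!c1) ∉ B' := by
          intro t' ht' hmem
          have h2 := hB23 q hq (!c1) _ hmem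
          have h3 : sg (q.1.ε (!c1)) * (sg (q.1.ε (!c1)) * t' + q.1.s (!c1) - q.1.s (!c1)) = t' := by
            rw [add_sub_cancel_right, ← mul_assoc, sg_mul_self, one_mul]
          rw [h3] at h2
          have h4 := cell_eq_of_mem (cell_symm ht') h2
          rw [← h4] at h2
          exact ht h2
        have hβ : sg (q.1.ε c1) * (β : ℝ) + q.1.s c1 ∈ B' := by
          have h2 : OnL B' (ρ g (io B' ((a, β), w, t))) := by
            rw [hZ g]
            exact ((lnE B').symm ⟨_, hV⟩).2
          rw [hcell w (fun _ => rfl) t (cell_refl _ _)] at h2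
          obtain ⟨b, hb⟩ := h2
          by_cases hbc : b = c1
          · rw [hbc] at hb
            have hb : q.1.ap (io B' ((a, β), w, t)).1 c1 ∈ B' := hb
            rwa [hy1] at hb
          · have hbc := Bool.eq_not_of_ne hbc
            rw [hbc] at hb
            have hb : q.1.ap (io B' ((a, β), w, t)).1 (!c1) ∈ B' := hb
            rw [hy2] at hb
            exact absurd hb (hnot t (cell_refl _ _))
        refine ⟨q.2, sg (q.1.ε (!c1)), q.1.s (!c1), (c1, ⟨_, hβ⟩), abs_sg _, ?_⟩
        intro w' hw' t' ht'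
        obtain ⟨hy', h3⟩ := hΨin g ((a, β), w', t') (hVc w' t' ht')
        rw [h3]
        have h4 := Prod.ext_iff.1 (hcell w' hw' t' ht')
        have h5 : (ρ g (io B' ((a, β), w', t'))).1 c1 ∈ B' := by
          rw [h4.1]
          change q.1.ap (io B' ((a, β), w', t')).1 c1 ∈ B'
          rw [hy1]
          exact hβ
        have h6 : (ρ g (io B' ((a, β), w', t'))).1 (!c1) ∉ B' := by
          rw [h4.1]
          change q.1.ap (io B' ((a, β), w', t')).1 (!c1) ∉ B'
          rw [hy2]
          exact hnot t' ht'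
        obtain ⟨h7, h8⟩ := k_spec B' h5 h6 hy'
        refine Prod.ext ?_ (Prod.ext h4.2 ?_)
        · change kj B' (ρ g (io B' ((a, β), w', t'))).1 hy' = (c1, ⟨_, hβ⟩)
          rw [h7]
          refine Prod.ext rfl (Subtype.ext ?_)
          change (ρ g (io B' ((a, β), w', t'))).1 c1 = _
          rw [h4.1]
          exact hy1 w' t'
        · change kt B' (ρ g (io B' ((a, β), w', t'))).1 = sg (q.1.ε (!c1)) * t' + q.1.s (!c1)
          rw [h8, h4.1]
          exact hy2 w' t'
    · refine ⟨0, 1, 0, (a, β), abs_one, ?_⟩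
      intro w' hw' t' ht'
      have h1 : a = true ∧ t ∈ B' := by
        by_contra h2
        refine hV (fun ha ht => h2 ⟨ha, ht⟩)
      have h2 := cell_eq_of_mem ht' (hB22 h1.2)
      subst h2
      rw [hΨout g _ (fun h3 => h3 h1.1 h1.2)]
      simp
  refine H479.finite_of_sub N hN2 ρ ?_
  refine H479.finite_range_of_ker Ψ (ρ.comp N.subtype) hfin (fun g hg => ?_)
  have h1 : σ g = 1 := Equiv.Perm.extendDomainHom_injective (lnE B') (hg.trans (map_one _).symm)
  apply Equiv.ext
  intro v
  by_cases hv : OnL B' v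
  · have h2 := congrArg (fun p : Equiv.Perm _ => (p ⟨v, hv⟩ : {v // OnL B' v}).1) h1
    exact h2
  · exact hfix v hv g

end Vale.Agent.P192.H823
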