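import Vale.Agent.P192.H823.Flip10

/-!
# P192: piecewise isometries of the plane times counters, explicit form
-/

namespace Vale.Agent.P192.H823

open Vale.Agent.P192.RL5 Vale.Agent.P192.H237
open Vale.Agent.P192.H479 (Cell)

/-- **Two lines and counters, with reflections and with exchange of the axes.** -/
theorem iso_two (G : Type) [Group G] [Group.IsFinitelyPresented G]
    (hG : ∀ x : G, IsOfFinOrder x) (S : Set G) (hS : Subgroup.closure S = ⊤)
    (k : ℕ) (W : Fin k → Type) (T : ∀ i, Equiv.Perm (W i))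
    (ρ : G →* Equiv.Perm (ℝ × (∀ i, W i) × ℝ))
    (hρ : ∀ s ∈ S, ∃ (m : ℕ) (c : ∀ i, W i → Fin m) (B : Finset ℝ)
      (K : Set (ℝ × (Fin k → ℤ) × ℝ)), K.Finite ∧ ∀ (x : ℝ) (w : ∀ i, W i) (y : ℝ),
        ∃ q ∈ K, ∃ e d : ℝ, |e| = 1 ∧ |d| = 1 ∧
          ((∀ x', Cell B x x' → ∀ w' : ∀ i, W i, (∀ i, c i (w i) = c i (w' i)) →
            ∀ y', Cell B y y' → ρ s (x', w', y') =
              (e * x' + q.1, fun i => (T i ^ q.2.1 i) (w' i), d * y' + q.2.2)) ∨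
          (∀ x', Cell B x x' → ∀ w' : ∀ i, W i, (∀ i, c i (w i) = c i (w' i)) →
            ∀ y', Cell B y y' → ρ s (x', w', y') =
              (e * y' + q.1, fun i => (T i ^ q.2.1 i) (w' i), d * x' + q.2.2)))) :
    Finite ρ.range := by
  classical
  let E : (ℝ × (∀ i, W i) × ℝ) ≃ ((Bool → ℝ) × (∀ i, W i)) :=
    { toFun := fun z => (fun b => if b then z.2.2 else z.1, z.2.1)
      invFun := fun v => (v.1 false, v.2, v.1 true)
      left_inv := fun z => rfl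
      right_inv := fun v => by
        refine Prod.ext ?_ rfl
        funext b
        cases b <;> rfl }
  refine H479.finite_of_cj E ρ (two_fin hG S hS T _ ?_)
  intro s hs
  obtain ⟨m, c, B, K, hK, h⟩ := hρ s hs
  let fm : (ℝ × (Fin k → ℤ) × ℝ) × Bool × Bool × Bool → Fm := fun p =>
    ⟨p.2.1, fun b => if b then p.2.2.2 else p.2.2.1, fun b => if b then p.1.2.2 else p.1.1⟩
  refine ⟨_, ⟨_, ⟨B, rfl⟩, _, ⟨m, c, rfl⟩, rfl⟩,
    (fun p : (ℝ × (Fin k → ℤ) × ℝ) × Bool × Bool × Bool =>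
      ((⟨(fm p).pm, fm p, rfl⟩ : Iso8), fun i => Multiplicative.ofAdd (p.1.2.1 i))) ''
      (K ×ˢ Set.univ), (hK.prod Set.finite_univ).image _, ?_⟩
  rintro ⟨z, w⟩ -
  obtain ⟨q, hq, e, d, he, hd, h1⟩ := h (z false) w (z true)
  obtain ⟨e, rfl⟩ := exists_sg he
  obtain ⟨d, rfl⟩ := exists_sg hd
  rcases h1 with h1 | h1
  · refine ⟨_, ⟨(q, false, e, d), ⟨hq, trivial⟩, rfl⟩, ?_⟩
    rintro ⟨z', w'⟩ - ⟨h2, h3⟩
    refine ⟨?_, trivial, trivial⟩
    refine (congrArg E (h1 (z' false) (h2 false) w' h3 (z' true) (h2 true))).trans ?_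
    refine Prod.ext ?_ rfl
    funext b
    cases b <;> rfl
  · refine ⟨_, ⟨(q, true, e, d), ⟨hq, trivial⟩, rfl⟩, ?_⟩
    rintro ⟨z', w'⟩ - ⟨h2, h3⟩
    refine ⟨?_, trivial, trivial⟩
    refine (congrArg E (h1 (z' false) (h2 false) w' h3 (z' true) (h2 true))).trans ?_
    refine Prod.ext ?_ rfl
    funext b
    cases b <;> rfl

end Vale.Agent.P192.H823
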