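import Vale.Agent.P192.H823.Flip1

/-!
# P192: isometric rectangle exchanges modulo lines: the action on the doubled square
-/

namespace Vale.Agent.P192.H823

open Filter Topology

section code

variable (l : Bool → ℝ)

/-- the offset of the germs along the axis `a` in direction `e` -/
noncomputable def off (a e : Bool) : ℝ := (if a then 2 * l false else 0) + (if e then 2 * l a else 0)

/-- the code of a germ -/
noncomputable def cd (a e : Bool) (p : ℝ) : ℝ := off l a e + sg e * p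

theorem cd_le (a e : Bool) (x p : ℝ) :
    (cd l a e x ≤ cd l a e p) ↔ (if e then ¬ lt x e p else lt x e p) := by
  cases e
  · simp only [cd, lt, sg, Bool.false_eq_true, if_false]
    constructor <;> intro h <;> linarith
  · simp only [cd, lt, sg, if_true, not_lt]
    constructor <;> intro h <;> linarith

theorem lt_of_band {a e : Bool} {x p p' : ℝ}
    (h : cd l a e x ≤ cd l a e p ↔ cd l a e x ≤ cd l a e p') : lt x e p ↔ lt x e p' := by
  rw [cd_le, cd_le] at h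
  cases e
  · simpa using h
  · simp only [if_true] at h
    exact not_iff_not.1 h

/-- the germs of the interval -/
def Vg (a e : Bool) (p : ℝ) : Prop := lt 0 e p ∧ ¬ lt (l a) e p

theorem vg_pos {a e : Bool} {p : ℝ} (h : Vg l a e p) : 0 < l a := by
  obtain ⟨h1, h2⟩ := h
  cases e
  · simp only [lt, Bool.false_eq_true, if_false, not_le] at h1 h2
    linarith
  · simp only [lt, if_true, not_lt] at h1 h2
    linarith

theorem cd_range (h0 : 0 < l false) (h1 : 0 < l true) {a e : Bool} {p : ℝ} (h : Vg l a e p) :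
    0 ≤ cd l a e p ∧ cd l a e p < 2 * l false + 2 * l true := by
  obtain ⟨h2, h3⟩ := h
  cases a <;> cases e <;>
    simp only [lt, cd, off, sg, Bool.false_eq_true, if_false, if_true, not_le, not_lt] at h2 h3 ⊢ <;>
    constructor <;> linarith

theorem cd_inj (h0 : 0 < l false) (h1 : 0 < l true) {a e a' e' : Bool} {p p' : ℝ}
    (h : Vg l a e p) (h' : Vg l a' e' p') (heq : cd l a e p = cd l a' e' p') :
    a = a' ∧ e = e' ∧ p = p' := by
  obtain ⟨h2, h3⟩ := h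
  obtain ⟨h4, h5⟩ := h'
  cases a <;> cases e <;> cases a' <;> cases e' <;>
    simp only [lt, cd, off, sg, Bool.false_eq_true, if_false, if_true, not_le, not_lt, true_and,
      false_and, reduceCtorEq] at h2 h3 h4 h5 heq ⊢ <;> linarith

/-- the code of a frame -/
noncomputable def code (F : Fr) : ℝ × ℝ :=
  (cd l F.1 (F.2.1 F.1) (F.2.2 F.1), cd l (!F.1) (F.2.1 (!F.1)) (F.2.2 (!F.1)))

variable {l}

theorem vf_iff {F : Fr} : Vf l F ↔ ∀ b, Vg l b (F.2.1 b) (F.2.2 b) := Iff.rfl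

theorem vf_pos {F : Fr} (h : Vf l F) (b : Bool) : 0 < l b := vg_pos l (h b)

theorem code_inj {F F' : Fr} (h : Vf l F) (h' : Vf l F') (heq : code l F = code l F') : F = F' := by
  obtain ⟨h1, h2, h3⟩ := cd_inj l (vf_pos h _) (vf_pos h _) (h F.1) (h' F'.1)
    (congrArg Prod.fst heq)
  obtain ⟨-, h5, h6⟩ := cd_inj l (vf_pos h _) (vf_pos h _) (h (!F.1)) (h' (!F'.1))
    (congrArg Prod.snd heq)
  obtain ⟨a, e, p⟩ := F
  obtain ⟨a', e', p'⟩ := F'
  have h1 : a = a' := h1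
  subst h1
  have he : e = e' := by
    funext b
    by_cases hb : b = a
    · rw [hb]; exact h2
    · rw [Bool.eq_not_of_ne hb]; exact h5
  have hp : p = p' := by
    funext b
    by_cases hb : b = a
    · rw [hb]; exact h3
    · rw [Bool.eq_not_of_ne hb]; exact h6
  rw [he, hp]

theorem code_range {F : Fr} (h : Vf l F) :
    (code l F).1 ∈ Set.Ico 0 (2 * l false + 2 * l true) ∧
      (code l F).2 ∈ Set.Ico 0 (2 * l false + 2 * l true) :=
  ⟨cd_range l (vf_pos h _) (vf_pos h _) (h F.1), cd_range l (vf_pos h _) (vf_pos h _) (h (!F.1))⟩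

variable (l)

/-- the breakpoints of the codes -/
noncomputable def bp (B : Set ℝ) : Set ℝ :=
  ⋃ a : Bool, ⋃ e : Bool, (fun x => cd l a e x) '' (insert 0 (insert (l a) B))

theorem bp_finite {B : Set ℝ} (hB : B.Finite) : (bp l B).Finite :=
  Set.finite_iUnion fun _ => Set.finite_iUnion fun _ => ((hB.insert _).insert _).image _

variable {l}

theorem transfer {B : Set ℝ} {F : Fr} (hF : Vf l F) {w' : ℝ × ℝ}
    (h : ∀ b ∈ bp l B, (b ≤ (code l F).1 ↔ b ≤ w'.1) ∧ (b ≤ (code l F).2 ↔ b ≤ w'.2)) :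
    ∃ p' : Bool → ℝ, Vf l (F.1, F.2.1, p') ∧ code l (F.1, F.2.1, p') = w' ∧
      ∀ b, ∀ x ∈ B, lt x (F.2.1 b) (F.2.2 b) ↔ lt x (F.2.1 b) (p' b) := by
  obtain ⟨a, e, p⟩ := F
  let p' : Bool → ℝ := fun b =>
    sg (e b) * ((if b = a then w'.1 else w'.2) - off l b (e b))
  have hp1 : cd l a (e a) (p' a) = w'.1 := by
    change off l a (e a) + sg (e a) * (sg (e a) * ((if a = a then w'.1 else w'.2) -
      off l a (e a))) = w'.1
    rw [if_pos rfl, ← mul_assoc, sg_mul_self]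
    ring
  have hna : (!a) ≠ a := by cases a <;> simp
  have hp2 : cd l (!a) (e (!a)) (p' (!a)) = w'.2 := by
    change off l (!a) (e (!a)) + sg (e (!a)) * (sg (e (!a)) * ((if (!a) = a then w'.1 else w'.2) -
      off l (!a) (e (!a)))) = w'.2
    rw [if_neg hna, ← mul_assoc, sg_mul_self]
    ring
  have hlt : ∀ b, ∀ x ∈ insert 0 (insert (l b) B), lt x (e b) (p b) ↔ lt x (e b) (p' b) := by
    intro b x hx
    have hmem : cd l b (e b) x ∈ bp l B :=
      Set.mem_iUnion.2 ⟨b, Set.mem_iUnion.2 ⟨e b, ⟨x, hx, rfl⟩⟩⟩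
    refine lt_of_band l (a := b) ?_
    by_cases hb : b = a
    · subst hb
      rw [hp1]
      exact (h _ hmem).1
    · have hb := Bool.eq_not_of_ne hb
      subst hb
      rw [hp2]
      exact (h _ hmem).2
  refine ⟨p', ?_, Prod.ext hp1 hp2, fun b x hx =>
    hlt b x (Set.mem_insert_of_mem _ (Set.mem_insert_of_mem _ hx))⟩
  intro b
  obtain ⟨h1, h2⟩ := hF b
  refine ⟨(hlt b 0 (Set.mem_insert _ _)).1 h1, fun h3 => h2 ?_⟩
  exact (hlt b (l b) (Set.mem_insert_of_mem _ (Set.mem_insert _ _))).2 h3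

end code

/-- the codes move by a translation which depends on the isometry, the first axis and the
directions only -/
theorem code_fr (l : Bool → ℝ) (φ : Fm) (a : Bool) (e : Bool → Bool) (p p' : Bool → ℝ) :
    code l (φ.fr (a, e, p')) - code l (a, e, p') = code l (φ.fr (a, e, p)) - code l (a, e, p) := by
  have key : ∀ b, ∀ q : Bool → ℝ,
      cd l (xor b φ.σ) (xor (φ.ε (xor b φ.σ)) (e (xor (xor b φ.σ) φ.σ)))
        (sg (φ.ε (xor b φ.σ)) * q (xor (xor b φ.σ) φ.σ) + φ.s (xor b φ.σ)) - cd l b (e b) (q b) =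
      off l (xor b φ.σ) (xor (φ.ε (xor b φ.σ)) (e b)) +
        sg (xor (φ.ε (xor b φ.σ)) (e b)) * φ.s (xor b φ.σ) - off l b (e b) := by
    intro b q
    have h1 : xor (xor b φ.σ) φ.σ = b := by cases b <;> cases φ.σ <;> rfl
    rw [h1]
    unfold cd
    rw [mul_add, ← mul_assoc]
    have h2 : sg (xor (φ.ε (xor b φ.σ)) (e b)) * sg (φ.ε (xor b φ.σ)) = sg (e b) := by
      rw [sg_xor, mul_comm (sg (φ.ε (xor b φ.σ))), mul_assoc, sg_mul_self, mul_one]
    rw [h2]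
    ring
  have hn : (!(xor a φ.σ)) = xor (!a) φ.σ := by cases a <;> cases φ.σ <;> rfl
  refine Prod.ext ?_ ?_
  · exact (key a p').trans (key a p).symm
  · change cd l (!(xor a φ.σ)) _ _ - _ = cd l (!(xor a φ.σ)) _ _ - _
    have h1 := key (!a) p'
    have h2 := key (!a) p
    rw [← hn] at h1 h2
    exact h1.trans h2.symm

namespace Sys

variable {G : Type} [Group G] (S : Sys G)

open Classical in
/-- the action on the doubled square -/
noncomputable def ψ (g : G) (w : ℝ × ℝ) : ℝ × ℝ :=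
  if h : ∃ F, Vf S.l F ∧ code S.l F = w then code S.l (S.nx g h.choose) else w

theorem ψ_code (g : G) {F : Fr} (hF : Vf S.l F) : S.ψ g (code S.l F) = code S.l (S.nx g F) := by
  have h : ∃ F', Vf S.l F' ∧ code S.l F' = code S.l F := ⟨F, hF, rfl⟩
  unfold ψ
  rw [dif_pos h, code_inj h.choose_spec.1 hF h.choose_spec.2]

theorem ψ_out (g : G) {w : ℝ × ℝ} (h : ¬ ∃ F, Vf S.l F ∧ code S.l F = w) : S.ψ g w = w :=
  dif_neg h

theorem ψ_one (w : ℝ × ℝ) : S.ψ 1 w = w := by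
  by_cases h : ∃ F, Vf S.l F ∧ code S.l F = w
  · obtain ⟨F, hF, rfl⟩ := h
    rw [S.ψ_code 1 hF, S.nx_one hF]
  · exact S.ψ_out 1 h

theorem ψ_mul (g h : G) (w : ℝ × ℝ) : S.ψ (g * h) w = S.ψ g (S.ψ h w) := by
  by_cases hw : ∃ F, Vf S.l F ∧ code S.l F = w
  · obtain ⟨F, hF, rfl⟩ := hw
    rw [S.ψ_code _ hF, S.ψ_code _ hF, S.ψ_code _ (S.nx_spec h hF).1, S.nx_mul g h hF]
  · rw [S.ψ_out _ hw, S.ψ_out _ hw, S.ψ_out _ hw]

/-- the action on the doubled square -/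
noncomputable def Φ : G →* Equiv.Perm (ℝ × ℝ) where
  toFun g := ⟨S.ψ g, S.ψ g⁻¹, fun w => by rw [← S.ψ_mul, inv_mul_cancel, S.ψ_one],
    fun w => by rw [← S.ψ_mul, mul_inv_cancel, S.ψ_one]⟩
  map_one' := Equiv.ext S.ψ_one
  map_mul' g h := Equiv.ext (S.ψ_mul g h)

theorem Φ_apply (g : G) (w : ℝ × ℝ) : S.Φ g w = S.ψ g w := rfl

/-- the size of the doubled square -/
noncomputable def Lam : ℝ := 2 * S.l false + 2 * S.l true

theorem Φ_out (g : G) (w : ℝ × ℝ) (h : w.1 ∉ Set.Ico 0 S.Lam ∨ w.2 ∉ Set.Ico 0 S.Lam) :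
    S.Φ g w = w := by
  refine S.ψ_out g ?_
  rintro ⟨F, hF, rfl⟩
  obtain ⟨h1, h2⟩ := code_range hF
  rcases h with h | h
  · exact h h1
  · exact h h2

theorem Φ_band (g : G) (w w' : ℝ × ℝ)
    (h : ∀ b ∈ bp S.l (S.B g), (b ≤ w.1 ↔ b ≤ w'.1) ∧ (b ≤ w.2 ↔ b ≤ w'.2)) :
    S.Φ g w' - w' = S.Φ g w - w := by
  by_cases hw : ∃ F, Vf S.l F ∧ code S.l F = w
  · obtain ⟨F, hF, rfl⟩ := hw
    obtain ⟨p', hp, rfl, hlt⟩ := transfer hF h
    obtain ⟨φ, hφ⟩ := S.exists_fm g hF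
    obtain ⟨h1, -⟩ := hφ F hF (fun b x _ => Iff.rfl)
    obtain ⟨h2, -⟩ := hφ _ hp hlt
    rw [S.Φ_apply, S.Φ_apply, S.ψ_code g hF, S.ψ_code g hp, S.nx_eq hF h1, S.nx_eq hp h2]
    exact code_fr S.l φ F.1 F.2.1 F.2.2 p'
  · have hw' : ¬ ∃ F, Vf S.l F ∧ code S.l F = w' := by
      rintro ⟨F, hF, rfl⟩
      obtain ⟨p', hp, hp', -⟩ := transfer (B := S.B g) (w' := w) hF
        (fun b hb => ⟨(h b hb).1.symm, (h b hb).2.symm⟩)
      exact hw ⟨_, hp, hp'⟩
    rw [S.Φ_apply, S.Φ_apply, S.ψ_out g hw, S.ψ_out g hw', sub_self, sub_self]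

theorem nx_of_Φ {g : G} (h : S.Φ g = 1) (F : Fr) (hF : Vf S.l F) : S.nx g F = F := by
  refine code_inj (S.nx_spec g hF).1 hF ?_
  rw [← S.ψ_code g hF, ← S.Φ_apply, h]
  rfl

end Sys

/-- exchanges of rectangles by translations (`A1k` with `k = 0`) -/
def Rec2 : Prop :=
  ∀ (G : Type) [Group G] [Group.IsFinitelyPresented G], (∀ x : G, IsOfFinOrder x) →
    ∀ (lam mu : ℝ) (ρ : G →* Equiv.Perm (ℝ × ℝ)),
    (∀ g z, (z.1 ∉ Set.Ico 0 lam ∨ z.2 ∉ Set.Ico 0 mu) → ρ g z = z) →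
    (∀ g, ∃ B : Set ℝ, B.Finite ∧ ∀ z z' : ℝ × ℝ,
      (∀ b ∈ B, (b ≤ z.1 ↔ b ≤ z'.1) ∧ (b ≤ z.2 ↔ b ≤ z'.2)) → ρ g z' - z' = ρ g z - z) →
    Finite ρ.range

/-- **Isometric rectangle exchanges modulo lines.** -/
theorem Sys.flip (hRec : Rec2) {G : Type} [Group G] [Group.IsFinitelyPresented G]
    (hG : ∀ x : G, IsOfFinOrder x) (S : Sys G) :
    ∃ N : Subgroup G, N.Normal ∧ N.FiniteIndex ∧ ∀ g ∈ N, ∀ z, Dom S.l z → (∀ b, z b ∉ S.B g) →
      S.ρ g z = z := by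
  have hfin : Finite S.Φ.range := hRec G hG S.Lam S.Lam S.Φ S.Φ_out
    (fun g => ⟨bp S.l (S.B g), bp_finite S.l (S.fB g), fun z z' h => S.Φ_band g z z' h⟩)
  refine ⟨S.Φ.ker, inferInstance, ?_, fun g hg => S.eq_of_nx (S.nx_of_Φ hg)⟩
  have : Finite (G ⧸ S.Φ.ker) :=
    Finite.of_equiv _ (QuotientGroup.quotientKerEquivRange S.Φ).symm.toEquiv
  exact Subgroup.finiteIndex_of_finite_quotient

end Vale.Agent.P192.H823
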