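import Vale.Agent.P192.H823.Flip0
import Vale.Agent.P192.H479.StmtRE

/-!
# P192: piecewise isometries of the plane modulo lines, pieces products of two intervals
-/

namespace Vale.Agent.P192.H823

open Filter Topology
open Vale.Agent.P192.H479 (Same)

/-- two lines and counters -/
def TwoLine : Prop :=
  ∀ (G : Type) [Group G] [Group.IsFinitelyPresented G], (∀ x : G, IsOfFinOrder x) →
    ∀ S : Set G, Subgroup.closure S = ⊤ →
    ∀ (k : ℕ) (W : Fin k → Type) (T : ∀ i, Equiv.Perm (W i))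
    (ρ : G →* Equiv.Perm (ℝ × (∀ i, W i) × ℝ)),
    (∀ s ∈ S, ∃ (m : ℕ) (c : ∀ i, W i → Fin m) (B : Finset ℝ)
      (K : Set (ℝ × (Fin k → ℤ) × ℝ)), K.Finite ∧
        ∀ (x : ℝ) (w : ∀ i, W i) (y : ℝ), ∃ q ∈ K,
          ∀ x', Same B x x' → ∀ w' : ∀ i, W i, (∀ i, c i (w i) = c i (w' i)) →
          ∀ y', Same B y y' →
          ρ s (x', w', y') = (x' + q.1, fun i => (T i ^ q.2.1 i) (w' i), y' + q.2.2)) →
    Finite ρ.range

/-- isometric rectangle exchanges of the plane: on the products of two open bands between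
breakpoints `B` the map is an isometry which preserves the directions of the axes -/
def IreL (B : Set ℝ) (f : (Bool → ℝ) → Bool → ℝ) : Prop :=
  ∀ z : Bool → ℝ, (∀ b, z b ∉ B) → ∃ φ : Fm, ∀ z' : Bool → ℝ, (∀ b, z' b ∉ B) →
    (∀ b, ∀ x ∈ B, x < z b ↔ x < z' b) → f z' = φ.ap z'

/-- actions by isometric rectangle exchanges of the plane modulo lines -/
structure SysL (G : Type) [Group G] where
  ρ : G → (Bool → ℝ) → Bool → ℝ
  B : G → Set ℝ
  fB : ∀ g, (B g).Finite
  ire : ∀ g, IreL (B g) (ρ g)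
  one : ∃ C : Set ℝ, C.Finite ∧ ∀ z : Bool → ℝ, (∀ b, z b ∉ C) → ρ 1 z = z
  mul : ∀ g h, ∃ C : Set ℝ, C.Finite ∧ ∀ z : Bool → ℝ, (∀ b, z b ∉ C) →
    ρ (g * h) z = ρ g (ρ h z)

namespace SysL

variable {G : Type} [Group G] (S : SysL G)

/-- the frame `F` goes to the frame `F'` -/
def St (g : G) (F F' : Fr) : Prop := ∀ᶠ d in sm, S.ρ g (pt F d) = pt F' d

theorem st_unique {g : G} {F F' F'' : Fr} (h : S.St g F F') (h' : S.St g F F'') : F' = F'' := by
  refine pt_inj ?_
  filter_upwards [h, h'] with d h1 h2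
  rw [← h1, ← h2]

/-- frames in the same band have a common isometry -/
theorem exists_fm (g : G) (F : Fr) :
    ∃ φ : Fm, ∀ F' : Fr,
      (∀ b, ∀ x ∈ S.B g, lt x (F.2.1 b) (F.2.2 b) ↔ lt x (F'.2.1 b) (F'.2.2 b)) →
      S.St g F' (φ.fr F') := by
  obtain ⟨d, h2⟩ := (ev_pt F (S.fB g)).exists
  obtain ⟨φ, hφ⟩ := S.ire g (pt F d) (fun b => (h2 b).1)
  refine ⟨φ, fun F' hb => ?_⟩
  filter_upwards [ev_pt F' (S.fB g)] with d' h5
  rw [← φ.ap_pt]
  refine hφ _ (fun b => (h5 b).1) (fun b x hx => ?_)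
  rw [(h2 b).2 x hx, (h5 b).2 x hx, hb b x hx]

theorem exists_st (g : G) (F : Fr) : ∃ F', S.St g F F' := by
  obtain ⟨φ, hφ⟩ := S.exists_fm g F
  exact ⟨_, hφ F (fun b x _ => Iff.rfl)⟩

theorem st_one (F : Fr) : S.St 1 F F := by
  obtain ⟨C, hC, h⟩ := S.one
  filter_upwards [ev_pt F hC] with d h2
  exact h _ (fun b => (h2 b).1)

theorem st_mul {g h : G} {F F' F'' : Fr} (h1 : S.St h F F') (h2 : S.St g F' F'') :
    S.St (g * h) F F'' := by
  obtain ⟨C, hC, h3⟩ := S.mul g h
  filter_upwards [ev_pt F hC, h1, h2] with d h5 h6 h7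
  rw [h3 _ (fun b => (h5 b).1), h6, h7]

/-- the action on the frames -/
noncomputable def nx (g : G) (F : Fr) : Fr := (S.exists_st g F).choose

theorem nx_spec (g : G) (F : Fr) : S.St g F (S.nx g F) := (S.exists_st g F).choose_spec

theorem nx_eq {g : G} {F F' : Fr} (h : S.St g F F') : S.nx g F = F' :=
  S.st_unique (S.nx_spec g F) h

theorem nx_one (F : Fr) : S.nx 1 F = F := S.nx_eq (S.st_one F)

theorem nx_mul (g h : G) (F : Fr) : S.nx (g * h) F = S.nx g (S.nx h F) :=
  S.nx_eq (S.st_mul (S.nx_spec h F) (S.nx_spec g _))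

/-- the action on the frames -/
noncomputable def Φ : G →* Equiv.Perm Fr where
  toFun g := ⟨S.nx g, S.nx g⁻¹, fun w => by rw [← S.nx_mul, inv_mul_cancel, S.nx_one],
    fun w => by rw [← S.nx_mul, mul_inv_cancel, S.nx_one]⟩
  map_one' := Equiv.ext S.nx_one
  map_mul' g h := Equiv.ext (S.nx_mul g h)

theorem Φ_apply (g : G) (F : Fr) : S.Φ g F = S.nx g F := rfl

/-- trivial on frames implies trivial off finitely many lines -/
theorem eq_of_nx {g : G} (h : ∀ F, S.nx g F = F) :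
    ∀ z : Bool → ℝ, (∀ b, z b ∉ S.B g) → S.ρ g z = z := by
  intro z hzB
  let F : Fr := (false, fun _ => false, z)
  obtain ⟨φ, hφ⟩ := S.ire g z hzB
  have h3 : S.St g F (φ.fr F) := by
    filter_upwards [ev_pt F (S.fB g)] with d' h5
    rw [← φ.ap_pt]
    refine hφ _ (fun b => (h5 b).1) (fun b x hx => ?_)
    rw [(h5 b).2 x hx]
    change x < z b ↔ lt x false (z b)
    simp only [lt, Bool.false_eq_true, if_false]
    refine ⟨le_of_lt, fun h6 => lt_of_le_of_ne h6 ?_⟩
    intro h7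
    exact hzB b (h7 ▸ hx)
  have h4 : φ.fr F = F := by
    rw [← S.nx_eq h3]
    exact h F
  rw [hφ z hzB (fun b x _ => Iff.rfl)]
  have h5 : ∀ d, pt F d = φ.ap (pt F d) := by
    intro d
    rw [φ.ap_pt, h4]
  have h6 : pt F (0, 0) = z := by
    funext b
    change z b + sg false * (if b = false then (0 : ℝ) else 0) = z b
    rw [ite_self, mul_zero, add_zero]
  rw [← h6, ← h5]

end SysL

/-- the codes of the frames -/
noncomputable def cde (F : Fr) : ℝ × (Fin 3 → Bool) × ℝ :=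
  (sg (F.2.1 F.1) * F.2.2 F.1, ![F.1, F.2.1 F.1, F.2.1 (!F.1)],
    sg (F.2.1 (!F.1)) * F.2.2 (!F.1))

/-- the frame of a code -/
noncomputable def dce (w : ℝ × (Fin 3 → Bool) × ℝ) : Fr :=
  (w.2.1 0, fun b => if b = w.2.1 0 then w.2.1 1 else w.2.1 2,
    fun b => if b = w.2.1 0 then sg (w.2.1 1) * w.1 else sg (w.2.1 2) * w.2.2)

theorem not_ne_self' (a : Bool) : (!a) ≠ a := by cases a <;> simp

theorem cde_dce (w : ℝ × (Fin 3 → Bool) × ℝ) : cde (dce w) = w := by
  have h := not_ne_self' (w.2.1 0)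
  unfold cde dce
  simp only [if_true, if_neg h]
  refine Prod.ext ?_ (Prod.ext ?_ ?_)
  · change sg (w.2.1 1) * (sg (w.2.1 1) * w.1) = w.1
    rw [← mul_assoc, sg_mul_self, one_mul]
  · funext i
    fin_cases i <;> rfl
  · change sg (w.2.1 2) * (sg (w.2.1 2) * w.2.2) = w.2.2
    rw [← mul_assoc, sg_mul_self, one_mul]

theorem dce_cde (F : Fr) : dce (cde F) = F := by
  obtain ⟨a, e, p⟩ := F
  unfold cde dce
  refine Prod.ext rfl (Prod.ext ?_ ?_)
  · funext b
    by_cases hb : b = a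
    · subst hb
      simp
    · have hb' := Bool.eq_not_of_ne hb
      subst hb'
      simp
  · funext b
    by_cases hb : b = a
    · subst hb
      simp [← mul_assoc, sg_mul_self]
    · have hb' := Bool.eq_not_of_ne hb
      subst hb'
      simp [← mul_assoc, sg_mul_self]

/-- frames and codes -/
noncomputable def cdeE : Fr ≃ (ℝ × (Fin 3 → Bool) × ℝ) := ⟨cde, dce, dce_cde, cde_dce⟩

/-- the swap of `Bool` -/
def nt : Equiv.Perm Bool := ⟨Bool.not, Bool.not, Bool.not_not, Bool.not_not⟩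

theorem exists_pow (x y : Bool) : ∃ n ∈ ({0, 1} : Set ℤ), (nt ^ n) x = y := by
  by_cases h : x = y
  · exact ⟨0, by simp, by simpa using h⟩
  · refine ⟨1, by simp, ?_⟩
    rw [zpow_one]
    change (!x) = y
    cases x <;> cases y <;> simp at h ⊢

/-- the germ at `p` in direction `e` and the breakpoints `sg e * x` -/
theorem lt_iff_sg (x : ℝ) (e : Bool) (p : ℝ) :
    (sg e * x ≤ sg e * p) ↔ (if e then ¬ lt x e p else lt x e p) := by
  cases e
  · simp only [lt, sg, Bool.false_eq_true, if_false, one_mul]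
  · simp only [lt, sg, if_true, not_lt]
    constructor <;> intro h <;> linarith

theorem lt_congr {x : ℝ} {e : Bool} {p p' : ℝ}
    (h : sg e * x ≤ sg e * p ↔ sg e * x ≤ sg e * p') : lt x e p ↔ lt x e p' := by
  rw [lt_iff_sg, lt_iff_sg] at h
  cases e
  · simpa using h
  · simp only [if_true] at h
    exact not_iff_not.1 h

/-- the codes move by a translation which depends on the isometry, the first axis and the
directions only -/
theorem cde_fr (φ : Fm) (a : Bool) (e : Bool → Bool) (p : Bool → ℝ) :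
    cde (φ.fr (a, e, p)) =
      (sg (e a) * p a + sg (xor (φ.ε (xor a φ.σ)) (e a)) * φ.s (xor a φ.σ),
        ![xor a φ.σ, xor (φ.ε (xor a φ.σ)) (e a), xor (φ.ε (xor (!a) φ.σ)) (e (!a))],
        sg (e (!a)) * p (!a) +
          sg (xor (φ.ε (xor (!a) φ.σ)) (e (!a))) * φ.s (xor (!a) φ.σ)) := by
  have h1 : ∀ b, xor (xor b φ.σ) φ.σ = b := by intro b; cases b <;> cases φ.σ <;> rfl
  have key : ∀ b, sg (xor (φ.ε (xor b φ.σ)) (e (xor (xor b φ.σ) φ.σ))) *
      (sg (φ.ε (xor b φ.σ)) * p (xor (xor b φ.σ) φ.σ) + φ.s (xor b φ.σ)) =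
      sg (e b) * p b + sg (xor (φ.ε (xor b φ.σ)) (e b)) * φ.s (xor b φ.σ) := by
    intro b
    rw [h1, mul_add, ← mul_assoc]
    have h2 : sg (xor (φ.ε (xor b φ.σ)) (e b)) * sg (φ.ε (xor b φ.σ)) = sg (e b) := by
      rw [sg_xor, mul_comm (sg (φ.ε (xor b φ.σ))), mul_assoc, sg_mul_self, mul_one]
    rw [h2]
  have hn : (!(xor a φ.σ)) = xor (!a) φ.σ := by cases a <;> cases φ.σ <;> rfl
  unfold cde Fm.fr
  simp only [hn]
  refine Prod.ext (key a) (Prod.ext ?_ (key (!a)))
  simp only [h1]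

/-- **Piecewise isometries of the plane modulo lines.** -/
theorem SysL.flip (hL : TwoLine) {G : Type} [Group G] [Group.IsFinitelyPresented G]
    (hG : ∀ x : G, IsOfFinOrder x) (S : SysL G) :
    ∃ N : Subgroup G, N.Normal ∧ N.FiniteIndex ∧ ∀ g ∈ N, ∀ z : Bool → ℝ,
      (∀ b, z b ∉ S.B g) → S.ρ g z = z := by
  classical
  let ρ' : G →* Equiv.Perm (ℝ × (Fin 3 → Bool) × ℝ) := cdeE.permCongrHom.toMonoidHom.comp S.Φ
  have hρ' : ∀ g w, ρ' g w = cde (S.nx g (dce w)) := fun g w => rfl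
  have hfin : Finite ρ'.range := by
    refine hL G hG Set.univ (Subgroup.closure_univ) 3 (fun _ => Bool) (fun _ => nt) ρ' ?_
    intro g _
    let B : Set ℝ := S.B g ∪ (fun x => -x) '' S.B g
    have hB : B.Finite := (S.fB g).union ((S.fB g).image _)
    have hmem : ∀ e, ∀ x ∈ S.B g, sg e * x ∈ hB.toFinset := by
      intro e x hx
      rw [Set.Finite.mem_toFinset]
      cases e
      · simp only [sg, Bool.false_eq_true, if_false, one_mul]
        exact Or.inl hx
      · simp only [sg, if_true]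
        exact Or.inr ⟨x, hx, by ring⟩
    -- the moves
    have hmove : ∀ w : ℝ × (Fin 3 → Bool) × ℝ, ∃ q : ℝ × (Fin 3 → ℤ) × ℝ,
        (∀ i, q.2.1 i ∈ ({0, 1} : Set ℤ)) ∧ ∀ x', Same hB.toFinset w.1 x' → ∀ y',
          Same hB.toFinset w.2.2 y' → ρ' g (x', w.2.1, y') =
            (x' + q.1, fun i => (nt ^ q.2.1 i) (w.2.1 i), y' + q.2.2) := by
      rintro ⟨x, w, y⟩
      obtain ⟨φ, hφ⟩ := S.exists_fm g (dce (x, w, y))
      -- the frames with the same axis and directions
      have hfr : ∀ x', Same hB.toFinset x x' → ∀ y', Same hB.toFinset y y' →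
          S.nx g (dce (x', w, y')) = φ.fr (dce (x', w, y')) := by
        intro x' hx' y' hy'
        refine S.nx_eq (hφ _ ?_)
        intro b t ht
        change lt t (if b = w 0 then w 1 else w 2) (if b = w 0 then sg (w 1) * x else sg (w 2) * y) ↔
          lt t (if b = w 0 then w 1 else w 2) (if b = w 0 then sg (w 1) * x' else sg (w 2) * y')
        by_cases hb : b = w 0
        · simp only [if_pos hb]
          refine lt_congr ?_
          rw [← mul_assoc, ← mul_assoc, sg_mul_self, one_mul, one_mul]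
          exact hx' _ (hmem _ t ht)
        · simp only [if_neg hb]
          refine lt_congr ?_
          rw [← mul_assoc, ← mul_assoc, sg_mul_self, one_mul, one_mul]
          exact hy' _ (hmem _ t ht)
      have hn := not_ne_self' (w 0)
      obtain ⟨n0, hn0, h0⟩ := exists_pow (w 0) (xor (w 0) φ.σ)
      obtain ⟨n1, hn1, h1⟩ := exists_pow (w 1) (xor (φ.ε (xor (w 0) φ.σ)) (w 1))
      obtain ⟨n2, hn2, h2⟩ := exists_pow (w 2) (xor (φ.ε (xor (!(w 0)) φ.σ)) (w 2))
      refine ⟨(sg (xor (φ.ε (xor (w 0) φ.σ)) (w 1)) * φ.s (xor (w 0) φ.σ), ![n0, n1, n2],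
        sg (xor (φ.ε (xor (!(w 0)) φ.σ)) (w 2)) * φ.s (xor (!(w 0)) φ.σ)), ?_, ?_⟩
      · intro i
        fin_cases i
        · exact hn0
        · exact hn1
        · exact hn2
      · intro x' hx' y' hy'
        rw [hρ', hfr x' hx' y' hy']
        have h3 := cde_fr φ (w 0) (fun b => if b = w 0 then w 1 else w 2)
          (fun b => if b = w 0 then sg (w 1) * x' else sg (w 2) * y')
        simp only [if_true, if_neg hn] at h3
        rw [← mul_assoc, ← mul_assoc, sg_mul_self, sg_mul_self, one_mul, one_mul] at h3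
        refine h3.trans ?_
        refine Prod.ext rfl (Prod.ext ?_ rfl)
        funext i
        fin_cases i
        · exact h0.symm
        · exact h1.symm
        · exact h2.symm
    -- finitely many bands
    let τ : ℝ × (Fin 3 → Bool) × ℝ → (hB.toFinset → Prop) × (Fin 3 → Bool) × (hB.toFinset → Prop) :=
      fun z => (fun b => b.1 ≤ z.1, z.2.1, fun b => b.1 ≤ z.2.2)
    have hτ : ∀ z z', τ z = τ z' → Same hB.toFinset z.1 z'.1 ∧ z.2.1 = z'.2.1 ∧
        Same hB.toFinset z.2.2 z'.2.2 := by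
      intro z z' h
      refine ⟨fun b hb => ?_, congrArg (fun t => t.2.1) h, fun b hb => ?_⟩
      · exact iff_of_eq (congrFun (congrArg Prod.fst h) ⟨b, hb⟩)
      · exact iff_of_eq (congrFun (congrArg (fun t => t.2.2) h) ⟨b, hb⟩)
    choose q hq1 hq2 using hmove
    let K : Set (ℝ × (Fin 3 → ℤ) × ℝ) := Set.range (fun i : (hB.toFinset → Prop) ×
      (Fin 3 → Bool) × (hB.toFinset → Prop) => if h : ∃ z, τ z = i then q h.choose else 0)
    refine ⟨2, fun _ b => if b then 1 else 0, hB.toFinset, K, Set.finite_range _, ?_⟩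
    intro x w y
    have hex : ∃ z, τ z = τ (x, w, y) := ⟨_, rfl⟩
    refine ⟨q hex.choose, ⟨τ (x, w, y), dif_pos hex⟩, ?_⟩
    intro x' hx' w' hw' y' hy'
    have hww : w = w' := by
      funext i
      have h1 := hw' i
      cases h2 : w i <;> cases h3 : w' i <;> rw [h2, h3] at h1 <;> simp at h1 ⊢
    subst hww
    obtain ⟨h4, h5, h6⟩ := hτ _ _ hex.choose_spec
    have h7 := hq2 hex.choose x' (fun b hb => (h4 b hb).trans (hx' b hb)) y'
      (fun b hb => (h6 b hb).trans (hy' b hb))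
    rw [h5] at h7
    exact h7
  have hker : ∀ g, ρ' g = 1 → S.Φ g = 1 := by
    intro g hg
    exact (map_eq_one_iff cdeE.permCongrHom cdeE.permCongrHom.injective).1 hg
  refine ⟨ρ'.ker, inferInstance, ?_, fun g hg => S.eq_of_nx (fun F => ?_)⟩
  · have : Finite (G ⧸ ρ'.ker) :=
      Finite.of_equiv _ (QuotientGroup.quotientKerEquivRange ρ').symm.toEquiv
    exact Subgroup.finiteIndex_of_finite_quotient
  · rw [← S.Φ_apply, hker g hg]
    rfl

end Vale.Agent.P192.H823
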