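import Vale.Agent.P192.H823.Flip3

/-!
# P192: piecewise isometries of the plane modulo lines, explicit form
-/

namespace Vale.Agent.P192.H823

open Filter Topology
open Vale.Agent.P192.H479 (Same)

theorem exists_sg {ε : ℝ} (h : |ε| = 1) : ∃ e, sg e = ε := by
  rcases (abs_eq (zero_le_one' ℝ)).1 h with h | h
  · exact ⟨false, by rw [h]; simp [sg]⟩
  · exact ⟨true, by rw [h]; simp [sg]⟩

/-- a pair as a function -/
def cp (z : ℝ × ℝ) : Bool → ℝ := fun b => if b then z.2 else z.1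

/-- a function as a pair -/
def pc (z : Bool → ℝ) : ℝ × ℝ := (z false, z true)

theorem cp_pc (z : Bool → ℝ) : cp (pc z) = z := by
  funext b
  cases b <;> rfl

theorem pc_cp (z : ℝ × ℝ) : pc (cp z) = z := rfl

theorem same_of_lt {B : Finset ℝ} {x y : ℝ} (hx : x ∉ B) (hy : y ∉ B)
    (h : ∀ b ∈ B, b < x ↔ b < y) : Same B x y := by
  intro b hb
  constructor
  · intro h1
    exact ((h b hb).1 (lt_of_le_of_ne h1 (fun h2 => hx (h2 ▸ hb)))).le
  · intro h1
    exact ((h b hb).2 (lt_of_le_of_ne h1 (fun h2 => hy (h2 ▸ hb)))).le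

/-- **Piecewise isometries of the plane modulo lines.** On products of two open intervals between
breakpoints the map is one of the eight kinds of isometries which preserve the pair of the axes. -/
theorem flip_plane (hL : TwoLine) (G : Type) [Group G] [Group.IsFinitelyPresented G]
    (hG : ∀ x : G, IsOfFinOrder x) (ρ : G → ℝ × ℝ → ℝ × ℝ)
    (hρ : ∀ g, ∃ B : Finset ℝ, ∀ z : ℝ × ℝ, z.1 ∉ B → z.2 ∉ B →
      ∃ ε δ s t : ℝ, |ε| = 1 ∧ |δ| = 1 ∧
        ((∀ z' : ℝ × ℝ, z'.1 ∉ B → z'.2 ∉ B → Same B z.1 z'.1 → Same B z.2 z'.2 →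
          ρ g z' = (ε * z'.1 + s, δ * z'.2 + t)) ∨
        (∀ z' : ℝ × ℝ, z'.1 ∉ B → z'.2 ∉ B → Same B z.1 z'.1 → Same B z.2 z'.2 →
          ρ g z' = (ε * z'.2 + s, δ * z'.1 + t))))
    (hone : ∃ B : Finset ℝ, ∀ z : ℝ × ℝ, z.1 ∉ B → z.2 ∉ B → ρ 1 z = z)
    (hmul : ∀ g h, ∃ B : Finset ℝ, ∀ z : ℝ × ℝ, z.1 ∉ B → z.2 ∉ B → ρ (g * h) z = ρ g (ρ h z)) :
    ∃ N : Subgroup G, N.Normal ∧ N.FiniteIndex ∧ ∀ g ∈ N, ∃ B : Finset ℝ,
      ∀ z : ℝ × ℝ, z.1 ∉ B → z.2 ∉ B → ρ g z = z := by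
  choose B hB using hρ
  have hcoe : ∀ (C : Finset ℝ) (z : Bool → ℝ), (∀ b, z b ∉ (C : Set ℝ)) →
      (pc z).1 ∉ C ∧ (pc z).2 ∉ C :=
    fun C z h => ⟨fun h1 => h false (Finset.mem_coe.2 h1), fun h1 => h true (Finset.mem_coe.2 h1)⟩
  let S : SysL G :=
    { ρ := fun g z => cp (ρ g (pc z))
      B := fun g => (B g : Set ℝ)
      fB := fun g => (B g).finite_toSet
      ire := by
        intro g z hz
        obtain ⟨h1, h2⟩ := hcoe _ z hz
        obtain ⟨ε, δ, s, t, hε, hδ, h⟩ := hB g (pc z) h1 h2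
        obtain ⟨e, rfl⟩ := exists_sg hε
        obtain ⟨d, rfl⟩ := exists_sg hδ
        rcases h with h | h
        · refine ⟨⟨false, fun b => if b then d else e, fun b => if b then t else s⟩,
            fun z' hz' hzz => ?_⟩
          obtain ⟨h3, h4⟩ := hcoe _ z' hz'
          change cp (ρ g (pc z')) = _
          rw [h (pc z') h3 h4 (same_of_lt h1 h3 fun b hb => hzz false b (Finset.mem_coe.2 hb))
            (same_of_lt h2 h4 fun b hb => hzz true b (Finset.mem_coe.2 hb))]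
          funext b
          cases b <;> rfl
        · refine ⟨⟨true, fun b => if b then d else e, fun b => if b then t else s⟩,
            fun z' hz' hzz => ?_⟩
          obtain ⟨h3, h4⟩ := hcoe _ z' hz'
          change cp (ρ g (pc z')) = _
          rw [h (pc z') h3 h4 (same_of_lt h1 h3 fun b hb => hzz false b (Finset.mem_coe.2 hb))
            (same_of_lt h2 h4 fun b hb => hzz true b (Finset.mem_coe.2 hb))]
          funext b
          cases b <;> rfl
      one := by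
        obtain ⟨C, hC⟩ := hone
        refine ⟨C, C.finite_toSet, fun z hz => ?_⟩
        obtain ⟨h1, h2⟩ := hcoe _ z hz
        rw [hC _ h1 h2, cp_pc]
      mul := by
        intro g h
        obtain ⟨C, hC⟩ := hmul g h
        refine ⟨C, C.finite_toSet, fun z hz => ?_⟩
        obtain ⟨h1, h2⟩ := hcoe _ z hz
        rw [hC _ h1 h2, pc_cp] }
  obtain ⟨N, h1, h2, h3⟩ := S.flip hL hG
  refine ⟨N, h1, h2, fun g hg => ⟨B g, fun z hz1 hz2 => ?_⟩⟩
  have h4 := h3 g hg (cp z) (fun b hb => by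
    cases b
    · exact hz1 (Finset.mem_coe.1 hb)
    · exact hz2 (Finset.mem_coe.1 hb))
  have h5 : cp (ρ g (pc (cp z))) = cp z := h4
  rw [pc_cp] at h5
  have h6 := congrArg pc h5
  rwa [pc_cp, pc_cp] at h6

end Vale.Agent.P192.H823
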