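import Vale.Agent.P192.H823.Flip3

/-!
# P192: two lines, counters and a finite set of states
-/

namespace Vale.Agent.P192.H823

open Vale.Agent.P192.H479 (Same)

theorem addRight_pow (n : ℕ) (j : ℕ) : ∀ z : ZMod n,
    ((Equiv.addRight (1 : ZMod n)) ^ j) z = z + j := by
  induction j with
  | zero =>
    intro z
    rw [pow_zero, Nat.cast_zero, add_zero]
    rfl
  | succ i ih =>
    intro z
    rw [pow_succ, Equiv.Perm.mul_apply, ih]
    change z + 1 + i = _
    push_cast
    ring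

/-- **Two lines, counters and a finite set of states.** -/
theorem two_line_fin (hL : TwoLine) (G : Type) [Group G] [Group.IsFinitelyPresented G]
    (hG : ∀ x : G, IsOfFinOrder x) (S : Set G) (hS : Subgroup.closure S = ⊤)
    (k : ℕ) (W : Fin k → Type) (T : ∀ i, Equiv.Perm (W i)) (P : Type) [Finite P]
    (ρ : G →* Equiv.Perm (ℝ × (P × ∀ i, W i) × ℝ))
    (hρ : ∀ s ∈ S, ∃ (m : ℕ) (c : ∀ i, W i → Fin m) (B : Finset ℝ)
      (K : Set (ℝ × (Fin k → ℤ) × ℝ)), K.Finite ∧
        ∀ (x : ℝ) (p : P) (w : ∀ i, W i) (y : ℝ), ∃ q ∈ K, ∃ p' : P,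
          ∀ x', Same B x x' → ∀ w' : ∀ i, W i, (∀ i, c i (w i) = c i (w' i)) →
          ∀ y', Same B y y' →
          ρ s (x', (p, w'), y') = (x' + q.1, (p', fun i => (T i ^ q.2.1 i) (w' i)), y' + q.2.2)) :
    Finite ρ.range := by
  classical
  rcases isEmpty_or_nonempty P with hP | hP
  · have : Subsingleton (Equiv.Perm (ℝ × (P × ∀ i, W i) × ℝ)) :=
      ⟨fun a b => Equiv.ext fun z => hP.elim z.2.1.1⟩
    infer_instance
  let n : ℕ := Nat.card P
  have hn : NeZero n := ⟨Nat.card_pos.ne'⟩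
  let e : P ≃ ZMod n := (Finite.equivFin P).trans (ZMod.finEquiv n).toEquiv
  let W' : Fin (k + 1) → Type := Fin.cons (ZMod n) W
  let sf : Equiv.Perm (ZMod n) := Equiv.addRight (1 : ZMod n)
  let T' : ∀ i, Equiv.Perm (W' i) :=
    Fin.cons (α := fun i => Equiv.Perm (W' i)) sf T
  let E : (ℝ × (P × ∀ i, W i) × ℝ) ≃ (ℝ × (∀ i, W' i) × ℝ) :=
    { toFun := fun z => (z.1, Fin.cons (α := W') (e z.2.1.1) z.2.1.2, z.2.2)
      invFun := fun z => (z.1, (e.symm (z.2.1 0), fun i => z.2.1 i.succ), z.2.2)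
      left_inv := fun z => by
        refine Prod.ext rfl (Prod.ext (Prod.ext ?_ rfl) rfl)
        exact e.symm_apply_apply _
      right_inv := fun z => by
        refine Prod.ext rfl (Prod.ext ?_ rfl)
        funext i
        refine Fin.cases ?_ (fun i => rfl) i
        exact e.apply_symm_apply _ }
  let ρ' : G →* Equiv.Perm (ℝ × (∀ i, W' i) × ℝ) := E.permCongrHom.toMonoidHom.comp ρ
  have hρ' : ∀ g z, ρ' g z = E (ρ g (E.symm z)) := fun g z => rfl
  have hfin : Finite ρ'.range := by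
    refine hL G hG S hS (k + 1) W' T' ρ' ?_
    intro s hs
    obtain ⟨m, c, B, K, hK, h⟩ := hρ s hs
    refine ⟨m + n, Fin.cons (α := fun i => W' i → Fin (m + n))
      (fun z : ZMod n => Fin.natAdd m ((ZMod.finEquiv n).symm z))
      (fun i w => Fin.castAdd n (c i w)), B,
      Set.image2 (fun (q : ℝ × (Fin k → ℤ) × ℝ) (j : ℤ) =>
        (q.1, (Fin.cons (α := fun _ => ℤ) j q.2.1 : Fin (k + 1) → ℤ), q.2.2)) K
        (Set.range fun i : Fin n => ((i : ℕ) : ℤ)),
      hK.image2 _ (Set.finite_range _), ?_⟩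
    intro x w y
    obtain ⟨q, hq, p', h1⟩ := h x (e.symm (w 0)) (fun i => w i.succ) y
    obtain ⟨w0, hw0⟩ : ∃ a : ZMod n, a = w 0 := ⟨w 0, rfl⟩
    have hj : ∃ j : Fin n, w0 + ((j : ℕ) : ZMod n) = e p' := by
      have hv : (e p' - w0) = ((ZMod.val (e p' - w0) : ℕ) : ZMod n) :=
        (ZMod.natCast_zmod_val _).symm
      refine ⟨⟨ZMod.val (e p' - w0), ZMod.val_lt _⟩, ?_⟩
      change w0 + ((ZMod.val (e p' - w0) : ℕ) : ZMod n) = e p'
      rw [← hv]
      ring
    obtain ⟨j, hj2⟩ := hj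
    refine ⟨_, ⟨q, hq, ((j : ℕ) : ℤ), ⟨j, rfl⟩, rfl⟩, ?_⟩
    intro x' hx' w' hw' y' hy'
    have h0 : w 0 = w' 0 := by
      have h2 := hw' 0
      change Fin.natAdd m ((ZMod.finEquiv n).symm (w 0)) =
        Fin.natAdd m ((ZMod.finEquiv n).symm (w' 0)) at h2
      exact (ZMod.finEquiv n).symm.injective (Fin.natAdd_injective _ _ h2)
    have h3 : ∀ i, c i (w i.succ) = c i (w' i.succ) := by
      intro i
      have h2 := hw' i.succ
      change Fin.castAdd n (c i (w i.succ)) = Fin.castAdd n (c i (w' i.succ)) at h2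
      exact Fin.castAdd_injective _ _ h2
    have h4 := h1 x' hx' (fun i => w' i.succ) h3 y' hy'
    rw [hρ']
    have h5 : E.symm (x', w', y') = (x', (e.symm (w 0), fun i : Fin k => w' i.succ), y') := by
      change (x', (e.symm (w' 0), fun i : Fin k => w' i.succ), y') = _
      rw [← h0]
    rw [h5]
    refine (congrArg E h4).trans ?_
    refine Prod.ext rfl (Prod.ext ?_ rfl)
    funext i
    refine Fin.cases ?_ (fun i => rfl) i
    have h6 : e p' = (sf ^ ((j : ℕ) : ℤ)) w0 := by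
      rw [zpow_natCast, addRight_pow, hj2]
    refine h6.trans ?_
    rw [hw0, h0]
    rfl
  have hker : ∀ g, ρ' g = 1 → ρ g = 1 := fun g hg =>
    (map_eq_one_iff E.permCongrHom E.permCongrHom.injective).1 hg
  have h1 : ρ.ker.FiniteIndex := by
    have h2 : ρ'.ker.FiniteIndex := by
      have : Finite (G ⧸ ρ'.ker) :=
        Finite.of_equiv _ (QuotientGroup.quotientKerEquivRange ρ').symm.toEquiv
      exact Subgroup.finiteIndex_of_finite_quotient
    exact Subgroup.finiteIndex_of_le (fun g hg => hker g hg : ρ'.ker ≤ ρ.ker)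
  have h2 : Finite (G ⧸ ρ.ker) := Subgroup.finite_quotient_of_finiteIndex
  exact Finite.of_equiv _ (QuotientGroup.quotientKerEquivRange ρ).toEquiv

end Vale.Agent.P192.H823
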