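import Vale.Agent.P192.H823.Flip6

/-!
# P192: piecewise isometries of the plane times counters, modulo lines
-/

namespace Vale.Agent.P192.H823

open Filter Topology
open Vale.Agent.P192.H479 (Same)

/-- actions on `ΠW × plane` by isometric exchanges modulo lines -/
structure SysC (G : Type) [Group G] (k : ℕ) (W : Fin k → Type) (T : ∀ i, Equiv.Perm (W i)) where
  ρ : G → (∀ i, W i) × (Bool → ℝ) → (∀ i, W i) × (Bool → ℝ)
  B : G → Set ℝ
  fB : ∀ g, (B g).Finite
  m : G → ℕ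
  c : ∀ g i, W i → Fin (m g)
  ire : ∀ g (w : ∀ i, W i) (z : Bool → ℝ), (∀ b, z b ∉ B g) → ∃ (φ : Fm) (q : Fin k → ℤ),
    ∀ (w' : ∀ i, W i) (z' : Bool → ℝ), (∀ i, c g i (w i) = c g i (w' i)) → (∀ b, z' b ∉ B g) →
      (∀ b, ∀ x ∈ B g, x < z b ↔ x < z' b) →
        ρ g (w', z') = (fun i => (T i ^ q i) (w' i), φ.ap z')
  one : ∃ C : Set ℝ, C.Finite ∧ ∀ w (z : Bool → ℝ), (∀ b, z b ∉ C) → ρ 1 (w, z) = (w, z)
  mul : ∀ g h, ∃ C : Set ℝ, C.Finite ∧ ∀ w (z : Bool → ℝ), (∀ b, z b ∉ C) →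
    ρ (g * h) (w, z) = ρ g (ρ h (w, z))

namespace SysC

variable {G : Type} [Group G] {k : ℕ} {W : Fin k → Type} {T : ∀ i, Equiv.Perm (W i)}
  (S : SysC G k W T)

/-- the frame `F` goes to the frame `F'` -/
def St (g : G) (F F' : (∀ i, W i) × Fr) : Prop :=
  ∀ᶠ d in sm, S.ρ g (F.1, pt F.2 d) = (F'.1, pt F'.2 d)

theorem st_unique {g : G} {F F' F'' : (∀ i, W i) × Fr} (h : S.St g F F') (h' : S.St g F F'') :
    F' = F'' := by
  refine Prod.ext ?_ (pt_inj ?_)
  · obtain ⟨d, h1, h2⟩ := (h.and h').exists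
    have h3 := h1.symm.trans h2
    exact (Prod.ext_iff.1 h3).1
  · filter_upwards [h, h'] with d h1 h2
    have h3 := h1.symm.trans h2
    exact (Prod.ext_iff.1 h3).2

/-- frames in the same band have a common isometry -/
theorem exists_fm (g : G) (w : ∀ i, W i) (F : Fr) :
    ∃ (φ : Fm) (q : Fin k → ℤ), ∀ (w' : ∀ i, W i) (F' : Fr),
      (∀ i, S.c g i (w i) = S.c g i (w' i)) →
      (∀ b, ∀ x ∈ S.B g, lt x (F.2.1 b) (F.2.2 b) ↔ lt x (F'.2.1 b) (F'.2.2 b)) →
      S.St g (w', F') (fun i => (T i ^ q i) (w' i), φ.fr F') := by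
  obtain ⟨d, h2⟩ := (ev_pt F (S.fB g)).exists
  obtain ⟨φ, q, hφ⟩ := S.ire g w (pt F d) (fun b => (h2 b).1)
  refine ⟨φ, q, fun w' F' hw hb => ?_⟩
  filter_upwards [ev_pt F' (S.fB g)] with d' h5
  rw [← φ.ap_pt]
  refine hφ w' _ hw (fun b => (h5 b).1) (fun b x hx => ?_)
  rw [(h2 b).2 x hx, (h5 b).2 x hx, hb b x hx]

theorem exists_st (g : G) (F : (∀ i, W i) × Fr) : ∃ F', S.St g F F' := by
  obtain ⟨φ, q, hφ⟩ := S.exists_fm g F.1 F.2
  exact ⟨_, hφ F.1 F.2 (fun i => rfl) (fun b x _ => Iff.rfl)⟩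

theorem st_one (F : (∀ i, W i) × Fr) : S.St 1 F F := by
  obtain ⟨C, hC, h⟩ := S.one
  filter_upwards [ev_pt F.2 hC] with d h2
  exact h _ _ (fun b => (h2 b).1)

theorem st_mul {g h : G} {F F' F'' : (∀ i, W i) × Fr} (h1 : S.St h F F') (h2 : S.St g F' F'') :
    S.St (g * h) F F'' := by
  obtain ⟨C, hC, h3⟩ := S.mul g h
  filter_upwards [ev_pt F.2 hC, h1, h2] with d h5 h6 h7
  rw [h3 _ _ (fun b => (h5 b).1), h6, h7]

/-- the action on the frames -/
noncomputable def nx (g : G) (F : (∀ i, W i) × Fr) : (∀ i, W i) × Fr := (S.exists_st g F).choose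

theorem nx_spec (g : G) (F : (∀ i, W i) × Fr) : S.St g F (S.nx g F) :=
  (S.exists_st g F).choose_spec

theorem nx_eq {g : G} {F F' : (∀ i, W i) × Fr} (h : S.St g F F') : S.nx g F = F' :=
  S.st_unique (S.nx_spec g F) h

theorem nx_one (F : (∀ i, W i) × Fr) : S.nx 1 F = F := S.nx_eq (S.st_one F)

theorem nx_mul (g h : G) (F : (∀ i, W i) × Fr) : S.nx (g * h) F = S.nx g (S.nx h F) :=
  S.nx_eq (S.st_mul (S.nx_spec h F) (S.nx_spec g _))

/-- the action on the frames -/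
noncomputable def Φ : G →* Equiv.Perm ((∀ i, W i) × Fr) where
  toFun g := ⟨S.nx g, S.nx g⁻¹, fun w => by rw [← S.nx_mul, inv_mul_cancel, S.nx_one],
    fun w => by rw [← S.nx_mul, mul_inv_cancel, S.nx_one]⟩
  map_one' := Equiv.ext S.nx_one
  map_mul' g h := Equiv.ext (S.nx_mul g h)

theorem Φ_apply (g : G) (F : (∀ i, W i) × Fr) : S.Φ g F = S.nx g F := rfl

/-- trivial on frames implies trivial off finitely many lines -/
theorem eq_of_nx {g : G} (h : ∀ F, S.nx g F = F) :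
    ∀ w (z : Bool → ℝ), (∀ b, z b ∉ S.B g) → S.ρ g (w, z) = (w, z) := by
  intro w z hzB
  let F : Fr := (false, fun _ => false, z)
  obtain ⟨φ, q, hφ⟩ := S.ire g w z hzB
  have h3 : S.St g (w, F) (fun i => (T i ^ q i) (w i), φ.fr F) := by
    filter_upwards [ev_pt F (S.fB g)] with d' h5
    rw [← φ.ap_pt]
    refine hφ w _ (fun i => rfl) (fun b => (h5 b).1) (fun b x hx => ?_)
    rw [(h5 b).2 x hx]
    change x < z b ↔ lt x false (z b)
    simp only [lt, Bool.false_eq_true, if_false]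
    refine ⟨le_of_lt, fun h6 => lt_of_le_of_ne h6 ?_⟩
    intro h7
    exact hzB b (h7 ▸ hx)
  have h4 : ((fun i => (T i ^ q i) (w i), φ.fr F) : (∀ i, W i) × Fr) = (w, F) := by
    rw [← S.nx_eq h3]
    exact h (w, F)
  rw [hφ w z (fun i => rfl) hzB (fun b x _ => Iff.rfl)]
  have h7 : φ.fr F = F := (Prod.ext_iff.1 h4).2
  have h5 : ∀ d, pt F d = φ.ap (pt F d) := by
    intro d
    rw [φ.ap_pt, h7]
  have h6 : pt F (0, 0) = z := by
    funext b
    change z b + sg false * (if b = false then (0 : ℝ) else 0) = z b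
    rw [ite_self, mul_zero, add_zero]
  refine Prod.ext (Prod.ext_iff.1 h4).1 ?_
  change φ.ap z = z
  rw [← h6, ← h5]

/-- **Piecewise isometries of the plane times counters, modulo lines.** -/
theorem flip (hL : TwoLine) [Group.IsFinitelyPresented G] (hG : ∀ x : G, IsOfFinOrder x) :
    ∃ N : Subgroup G, N.Normal ∧ N.FiniteIndex ∧ ∀ g ∈ N, ∀ w (z : Bool → ℝ),
      (∀ b, z b ∉ S.B g) → S.ρ g (w, z) = (w, z) := by
  classical
  let E : ((∀ i, W i) × Fr) ≃ (ℝ × ((Fin 3 → Bool) × ∀ i, W i) × ℝ) :=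
    { toFun := fun F => ((cde F.2).1, ((cde F.2).2.1, F.1), (cde F.2).2.2)
      invFun := fun v => (v.2.1.2, dce (v.1, v.2.1.1, v.2.2))
      left_inv := fun F => Prod.ext rfl (dce_cde F.2)
      right_inv := fun v => by
        have h := Prod.ext_iff.1 (cde_dce (v.1, v.2.1.1, v.2.2))
        have h' := Prod.ext_iff.1 h.2
        exact Prod.ext h.1 (Prod.ext (Prod.ext h'.1 rfl) h'.2) }
  let ρ' : G →* Equiv.Perm (ℝ × ((Fin 3 → Bool) × ∀ i, W i) × ℝ) :=
    E.permCongrHom.toMonoidHom.comp S.Φ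
  have hρ' : ∀ g v, ρ' g v = E (S.nx g (E.symm v)) := fun g v => rfl
  have hfin : Finite ρ'.range := by
    refine two_line_fin hL G hG Set.univ (Subgroup.closure_univ) k W T (Fin 3 → Bool) ρ' ?_
    intro g _
    let B : Set ℝ := S.B g ∪ (fun x => -x) '' S.B g
    have hB : B.Finite := (S.fB g).union ((S.fB g).image _)
    have hmem : ∀ e, ∀ x ∈ S.B g, sg e * x ∈ hB.toFinset := by
      intro e x hx
      rw [Set.Finite.mem_toFinset]
      cases e
      · simp only [sg, Bool.false_eq_true, if_false, one_mul]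
        exact Or.inl hx
      · simp only [sg, if_true]
        exact Or.inr ⟨x, hx, by ring⟩
    -- the moves
    have hmove : ∀ v : ℝ × ((Fin 3 → Bool) × ∀ i, W i) × ℝ,
        ∃ (q : ℝ × (Fin k → ℤ) × ℝ) (p' : Fin 3 → Bool),
        ∀ x', Same hB.toFinset v.1 x' → ∀ w' : ∀ i, W i,
          (∀ i, S.c g i (v.2.1.2 i) = S.c g i (w' i)) → ∀ y', Same hB.toFinset v.2.2 y' →
          ρ' g (x', (v.2.1.1, w'), y') =
            (x' + q.1, (p', fun i => (T i ^ q.2.1 i) (w' i)), y' + q.2.2) := by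
      rintro ⟨x, ⟨p, w⟩, y⟩
      obtain ⟨φ, q, hφ⟩ := S.exists_fm g w (dce (x, p, y))
      have hfr : ∀ x', Same hB.toFinset x x' → ∀ w' : ∀ i, W i,
          (∀ i, S.c g i (w i) = S.c g i (w' i)) → ∀ y', Same hB.toFinset y y' →
          S.nx g (w', dce (x', p, y')) = (fun i => (T i ^ q i) (w' i), φ.fr (dce (x', p, y'))) := by
        intro x' hx' w' hw' y' hy'
        refine S.nx_eq (hφ w' _ hw' ?_)
        intro b t ht
        change lt t (if b = p 0 then p 1 else p 2) (if b = p 0 then sg (p 1) * x else sg (p 2) * y) ↔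
          lt t (if b = p 0 then p 1 else p 2) (if b = p 0 then sg (p 1) * x' else sg (p 2) * y')
        by_cases hb : b = p 0
        · simp only [if_pos hb]
          refine lt_congr ?_
          rw [← mul_assoc, ← mul_assoc, sg_mul_self, one_mul, one_mul]
          exact hx' _ (hmem _ t ht)
        · simp only [if_neg hb]
          refine lt_congr ?_
          rw [← mul_assoc, ← mul_assoc, sg_mul_self, one_mul, one_mul]
          exact hy' _ (hmem _ t ht)
      have hn := not_ne_self' (p 0)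
      refine ⟨(sg (xor (φ.ε (xor (p 0) φ.σ)) (p 1)) * φ.s (xor (p 0) φ.σ), q,
        sg (xor (φ.ε (xor (!(p 0)) φ.σ)) (p 2)) * φ.s (xor (!(p 0)) φ.σ)),
        ![xor (p 0) φ.σ, xor (φ.ε (xor (p 0) φ.σ)) (p 1), xor (φ.ε (xor (!(p 0)) φ.σ)) (p 2)], ?_⟩
      intro x' hx' w' hw' y' hy'
      have h3 := cde_fr φ (p 0) (fun b => if b = p 0 then p 1 else p 2)
        (fun b => if b = p 0 then sg (p 1) * x' else sg (p 2) * y')
      simp only [if_true, if_neg hn] at h3
      rw [← mul_assoc, ← mul_assoc, sg_mul_self, sg_mul_self, one_mul, one_mul] at h3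
      rw [hρ']
      refine (congrArg E (hfr x' hx' w' hw' y' hy')).trans ?_
      have h4 := Prod.ext_iff.1 h3
      have h5 := Prod.ext_iff.1 h4.2
      exact Prod.ext h4.1 (Prod.ext (Prod.ext h5.1 rfl) h5.2)
    -- finitely many cells
    let τ : ℝ × ((Fin 3 → Bool) × ∀ i, W i) × ℝ →
        (hB.toFinset → Prop) × (Fin 3 → Bool) × (Fin k → Fin (S.m g)) × (hB.toFinset → Prop) :=
      fun v => (fun b => b.1 ≤ v.1, v.2.1.1, fun i => S.c g i (v.2.1.2 i), fun b => b.1 ≤ v.2.2)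
    have hτ : ∀ v v', τ v = τ v' → Same hB.toFinset v.1 v'.1 ∧ v.2.1.1 = v'.2.1.1 ∧
        (∀ i, S.c g i (v.2.1.2 i) = S.c g i (v'.2.1.2 i)) ∧ Same hB.toFinset v.2.2 v'.2.2 := by
      intro v v' h
      refine ⟨fun b hb => ?_, congrArg (fun t => t.2.1) h, fun i => ?_, fun b hb => ?_⟩
      · exact iff_of_eq (congrFun (congrArg Prod.fst h) ⟨b, hb⟩)
      · exact congrFun (congrArg (fun t => t.2.2.1) h) i
      · exact iff_of_eq (congrFun (congrArg (fun t => t.2.2.2) h) ⟨b, hb⟩)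
    choose q p' hq using hmove
    let K : Set (ℝ × (Fin k → ℤ) × ℝ) := Set.range (fun i : (hB.toFinset → Prop) ×
      (Fin 3 → Bool) × (Fin k → Fin (S.m g)) × (hB.toFinset → Prop) =>
        if h : ∃ v, τ v = i then q h.choose else 0)
    refine ⟨S.m g, S.c g, hB.toFinset, K, Set.finite_range _, ?_⟩
    intro x p w y
    have hex : ∃ v, τ v = τ (x, (p, w), y) := ⟨_, rfl⟩
    refine ⟨q hex.choose, ⟨τ (x, (p, w), y), dif_pos hex⟩, p' hex.choose, ?_⟩
    intro x' hx' w' hw' y' hy'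
    obtain ⟨h4, h5, h6, h7⟩ := hτ _ _ hex.choose_spec
    have h8 := hq hex.choose x' (fun b hb => (h4 b hb).trans (hx' b hb)) w'
      (fun i => (h6 i).trans (hw' i)) y' (fun b hb => (h7 b hb).trans (hy' b hb))
    rw [h5] at h8
    exact h8
  have hker : ∀ g, ρ' g = 1 → S.Φ g = 1 := by
    intro g hg
    exact (map_eq_one_iff E.permCongrHom E.permCongrHom.injective).1 hg
  refine ⟨ρ'.ker, inferInstance, ?_, fun g hg => S.eq_of_nx (fun F => ?_)⟩
  · have : Finite (G ⧸ ρ'.ker) :=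
      Finite.of_equiv _ (QuotientGroup.quotientKerEquivRange ρ').symm.toEquiv
    exact Subgroup.finiteIndex_of_finite_quotient
  · rw [← S.Φ_apply, hker g hg]
    rfl

end SysC

end Vale.Agent.P192.H823
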