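import Vale.Agent.P192.H823.Flip8
import Vale.Agent.P192.H479.RL15

/-!
# P192: the line with a finite set of states; finitely many lines in the plane
-/

namespace Vale.Agent.P192.H823

open Vale.Agent.P192.RL5 Vale.Agent.P192.H237
open Vale.Agent.P192.H479 (Cell)

/-- **Finite set of states, counters, line.** -/
theorem iso_one_fin (G : Type) [Group G] [Group.IsFinitelyPresented G]
    (hG : ∀ x : G, IsOfFinOrder x) (S : Set G) (hS : Subgroup.closure S = ⊤)
    (J : Type) [Finite J] (k : ℕ) (W : Fin k → Type) (T : ∀ i, Equiv.Perm (W i))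
    (ρ : G →* Equiv.Perm (J × (∀ i, W i) × ℝ))
    (hρ : ∀ s ∈ S, ∃ (m : ℕ) (c : ∀ i, W i → Fin m) (B : Finset ℝ),
      ∀ (j : J) (w : ∀ i, W i) (x : ℝ), ∃ (q : Fin k → ℤ) (e t : ℝ) (j' : J), |e| = 1 ∧
        ∀ w' : ∀ i, W i, (∀ i, c i (w i) = c i (w' i)) → ∀ x' : ℝ, Cell B x x' →
          ρ s (j, w', x') = (j', fun i => (T i ^ q i) (w' i), e * x' + t)) :
    Finite ρ.range := by
  classical
  rcases isEmpty_or_nonempty J with hJ | hJ
  · have : Subsingleton (Equiv.Perm (J × (∀ i, W i) × ℝ)) :=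
      ⟨fun a b => Equiv.ext fun z => hJ.elim z.1⟩
    infer_instance
  let _ : Fintype J := Fintype.ofFinite _
  have hn : NeZero (Fintype.card J) := ⟨Fintype.card_ne_zero⟩
  let Q : Type := Multiplicative (ZMod (Fintype.card J))
  have hQf : Finite Q := inferInstanceAs (Finite (ZMod (Fintype.card J)))
  let e : J ≃ Q := (Fintype.equivOfCardEq (by rw [ZMod.card])).trans
    (Multiplicative.ofAdd (α := ZMod (Fintype.card J)))
  let E : (J × (∀ i, W i) × ℝ) ≃ (Q × (∀ i, W i) × ℝ) := e.prodCongr (Equiv.refl _)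
  refine H479.finite_of_cj E ρ ?_
  refine H479.iso_one G hG S hS Q (H479.twocol_of_vfree Q (H479.vfree_fin Q)) Q
    (fun x v h => mul_eq_right.1 h) k W T _ ?_
  intro s hs
  obtain ⟨m, c, B, h⟩ := hρ s hs
  choose q ε t j' hε h using h
  let τ : Q × (∀ i, W i) × ℝ → Q × (Fin k → Fin m) × (B → Prop) × (B → Prop) :=
    fun v => (v.1, fun i => c i (v.2.1 i), fun b => b.1 < v.2.2, fun b => v.2.2 < b.1)
  have hτ : ∀ v v', τ v = τ v' → v.1 = v'.1 ∧ (∀ i, c i (v.2.1 i) = c i (v'.2.1 i)) ∧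
      Cell B v.2.2 v'.2.2 := by
    intro v v' h
    have h1 := Prod.ext_iff.1 h
    have h2 := Prod.ext_iff.1 h1.2
    have h3 := Prod.ext_iff.1 h2.2
    exact ⟨h1.1, fun i => congrFun h2.1 i, fun b hb =>
      ⟨iff_of_eq (congrFun h3.1 ⟨b, hb⟩), iff_of_eq (congrFun h3.2 ⟨b, hb⟩)⟩⟩
  let mv : Q × (∀ i, W i) × ℝ → Q × (Fin k → ℤ) × ℝ := fun v =>
    (e (j' (e.symm v.1) v.2.1 v.2.2) * v.1⁻¹, q (e.symm v.1) v.2.1 v.2.2,
      t (e.symm v.1) v.2.1 v.2.2)
  let K : Set (Q × (Fin k → ℤ) × ℝ) := Set.range (fun i : Q × (Fin k → Fin m) ×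
    (B → Prop) × (B → Prop) => if h : ∃ v, τ v = i then mv h.choose else 1)
  refine ⟨m, c, B, K, Set.finite_range _, ?_⟩
  intro u w x
  have hex : ∃ v, τ v = τ (u, w, x) := ⟨_, rfl⟩
  obtain ⟨⟨u0, w0, x0⟩, hv0, hspec⟩ : ∃ v0 : Q × (∀ i, W i) × ℝ,
      v0 = hex.choose ∧ τ v0 = τ (u, w, x) := ⟨hex.choose, rfl, hex.choose_spec⟩
  obtain ⟨h4, h5, h6⟩ := hτ _ _ hspec
  have h4 : u0 = u := h4
  subst h4
  refine ⟨mv (u0, w0, x0), ⟨τ (u0, w, x), (dif_pos hex).trans (by rw [← hv0])⟩,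
    ε (e.symm u0) w0 x0, hε _ _ _, ?_⟩
  intro w' hw' x' hx'
  have h7 := h (e.symm u0) w0 x0 w' (fun i => (h5 i).trans (hw' i)) x'
    (fun b hb => ⟨(h6 b hb).1.trans (hx' b hb).1, (h6 b hb).2.trans (hx' b hb).2⟩)
  change E (ρ s (e.symm u0, w', x')) = _
  refine (congrArg E h7).trans ?_
  refine Prod.ext ?_ rfl
  change e (j' (e.symm u0) w0 x0) = e (j' (e.symm u0) w0 x0) * u0⁻¹ * u0
  rw [inv_mul_cancel_right]

section lines

variable {W' : Type} (B : Finset ℝ)

/-- the finitely many lines -/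
def OnL (v : (Bool → ℝ) × W') : Prop := ∃ b, v.1 b ∈ B

/-- the codes of the points on the lines -/
def Vc (u : (Bool × B) × W' × ℝ) : Prop := u.1.1 = true → u.2.2 ∉ B

open Classical in
/-- the line of a point -/
noncomputable def kj (y : Bool → ℝ) (hy : ∃ b, y b ∈ B) : Bool × B :=
  if h : y false ∈ B then (false, ⟨y false, h⟩) else (true, ⟨y true, by
    obtain ⟨b, hb⟩ := hy
    cases b
    · exact absurd hb h
    · exact hb⟩)

open Classical in
/-- the parameter of a point -/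
noncomputable def kt (y : Bool → ℝ) : ℝ := if y false ∈ B then y true else y false

/-- the point with a given code -/
def io (u : (Bool × B) × W' × ℝ) : (Bool → ℝ) × W' :=
  (fun b => if b = u.1.1 then (u.1.2 : ℝ) else u.2.2, u.2.1)

theorem k_spec {y : Bool → ℝ} {a : Bool} (h1 : y a ∈ B) (h2 : y (!a) ∉ B) (hy : ∃ b, y b ∈ B) :
    kj B y hy = (a, ⟨y a, h1⟩) ∧ kt B y = y (!a) := by
  cases a
  · refine ⟨?_, ?_⟩
    · unfold kj
      rw [dif_pos h1]
    · unfold kt
      rw [if_pos h1]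
      rfl
  · have h3 : y false ∉ B := h2
    refine ⟨?_, ?_⟩
    · unfold kj
      rw [dif_neg h3]
    · unfold kt
      rw [if_neg h3]
      rfl

/-- the points on the lines and their codes -/
noncomputable def lnE : {v : (Bool → ℝ) × W' // OnL B v} ≃ {u : (Bool × B) × W' × ℝ // Vc B u} where
  toFun v := ⟨(kj B v.1.1 v.2, v.1.2, kt B v.1.1), by
    classical
    intro h
    have h : (kj B v.1.1 v.2).1 = true := h
    change kt B v.1.1 ∉ B
    unfold kj at h
    unfold kt
    by_cases h1 : v.1.1 false ∈ B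
    · rw [dif_pos h1] at h
      exact absurd h (by simp)
    · rw [if_neg h1]
      exact h1⟩
  invFun u := ⟨io B u.1, u.1.1.1, by
    change (if u.1.1.1 = u.1.1.1 then (u.1.1.2 : ℝ) else u.1.2.2) ∈ B
    rw [if_pos rfl]
    exact u.1.1.2.2⟩
  left_inv v := by
    classical
    apply Subtype.ext
    refine Prod.ext ?_ rfl
    funext b
    change (if b = (kj B v.1.1 v.2).1 then ((kj B v.1.1 v.2).2 : ℝ) else kt B v.1.1) = v.1.1 b
    unfold kj kt
    by_cases h1 : v.1.1 false ∈ B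
    · rw [dif_pos h1, if_pos h1]
      cases b <;> simp
    · rw [dif_neg h1, if_neg h1]
      cases b <;> simp
  right_inv u := by
    obtain ⟨⟨⟨a, t⟩, w, x⟩, hu⟩ := u
    apply Subtype.ext
    have hon : ∃ b, (io B ((a, t), w, x)).1 b ∈ B := ⟨a, by
      change (if a = a then (t : ℝ) else x) ∈ B
      rw [if_pos rfl]
      exact t.2⟩
    change ((kj B (io B ((a, t), w, x)).1 hon, w, kt B (io B ((a, t), w, x)).1) :
      (Bool × B) × W' × ℝ) = ((a, t), w, x)
    have h1 : (io B ((a, t), w, x)).1 a = t := by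
      change (if a = a then (t : ℝ) else x) = t
      rw [if_pos rfl]
    have h2 : (io B ((a, t), w, x)).1 (!a) = x := by
      change (if (!a) = a then (t : ℝ) else x) = x
      rw [if_neg (not_ne_self' a)]
    cases a
    · have h3 : (io B ((false, t), w, x)).1 false ∈ B := by
        rw [h1]
        exact t.2
      unfold kj kt
      rw [dif_pos h3, if_pos h3]
      exact Prod.ext (Prod.ext rfl (Subtype.ext h1)) (Prod.ext rfl h2)
    · have h3 : (io B ((true, t), w, x)).1 false ∉ B := by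
        have h4 : (io B ((true, t), w, x)).1 false = x := h2
        rw [h4]
        exact hu rfl
      unfold kj kt
      rw [dif_neg h3, if_neg h3]
      exact Prod.ext (Prod.ext rfl (Subtype.ext h1)) (Prod.ext rfl h2)

end lines

end Vale.Agent.P192.H823
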