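import Vale.Agent.P192.H823.HW0
import Vale.Agent.P192.H176.Hd2

/-!
# P192: heads, infinite words, counters, line
-/

namespace Vale.Agent.P192.H823.HW

open Vale.Agent.P192.H479 (CellK cj cj_apply)
open Vale.Agent.P192.H567
open Vale.Agent.P192.H176.Hd (Near near_refl)

/-- heads, free action, counters, line: the uniform theorem, hypotheses on the generators -/
def HeadsLineS : Prop :=
  ∀ (G : Type) [Group G] [Group.IsFinitelyPresented G], (∀ x : G, IsOfFinOrder x) →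
    ∀ (S : Set G), Subgroup.closure S = ⊤ →
    ∀ (L : Type) [Group L],
    (∀ E : Set L, E.Finite → ∃ m : ℕ, ∃ C : Set L, ∀ x : L,
      {y | Relation.ReflTransGen (fun a b => (a ∈ C ↔ b ∈ C) ∧ ∃ e ∈ E, b = e * a) x y}.encard ≤ m) →
    ∀ (k₀ k m r : ℕ) (K : Set (L × (Fin k₀ → ℤ) × (Fin k → ℤ))), K.Finite →
    ∃ N : Subgroup G, N.Normal ∧ N.FiniteIndex ∧
      ∀ (𝕜 : Type) [Field 𝕜] [LinearOrder 𝕜] [IsStrictOrderedRing 𝕜] (U : Type) [MulAction L U],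
      (∀ (l : L) (u : U), l • u = u → l = 1) →
      ∀ (W : Fin k₀ → Type) (T : ∀ i, Equiv.Perm (W i))
        (ρ : G →* Equiv.Perm ((U × (∀ i, W i) × 𝕜) × (Fin k → ℤ))),
      (∀ s ∈ S, ∃ (c : ∀ i, W i → Fin m) (a : Fin k → ℤ → Fin m)
        (B R : Finset 𝕜), B.card ≤ m ∧ R.card ≤ m ∧
        ∀ (u : U) (w : ∀ i, W i) (x : 𝕜) (z : Fin k → ℤ), ∃ q ∈ K, ∃ t ∈ R, ∃ e : 𝕜, |e| = 1 ∧
          ∀ w' : ∀ i, W i, (∀ i, c i (w i) = c i (w' i)) → ∀ x' : 𝕜, CellK B x x' →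
            ∀ z' : Fin k → ℤ, (∀ j, a j (z j) = a j (z' j)) → Near r z z' →
            ρ s ((u, w', x'), z') =
              ((q.1 • u, fun i => (T i ^ q.2.1 i) (w' i), e * x' + t), z' + q.2.2)) →
      ∀ g ∈ N, ρ g = 1

/-- **Heads, infinite words, counters, line: the uniform theorem.** -/
theorem heads_words_of (hHL : HeadsLineS) (G : Type) [Group G] [Group.IsFinitelyPresented G]
    (hG : ∀ x : G, IsOfFinOrder x) (S : Set G) (hS : Subgroup.closure S = ⊤)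
    (X : Type) [Finite X] (k₀ k m n r : ℕ) (K : Set ((Fin k₀ → ℤ) × (Fin k → ℤ)))
    (hK : K.Finite) :
    ∃ N : Subgroup G, N.Normal ∧ N.FiniteIndex ∧
      ∀ (𝕜 : Type) [Field 𝕜] [LinearOrder 𝕜] [IsStrictOrderedRing 𝕜] (Ω : Set (ℕ → X)),
      (∀ ξ ∈ Ω, ∀ n, ∃ ξ' ∈ Ω, Aper ξ' ∧ ∀ i < n, ξ' i = ξ i) →
      ∀ (W : Fin k₀ → Type) (T : ∀ i, Equiv.Perm (W i))
        (ρ : G →* Equiv.Perm ((Ω × (∀ i, W i) × 𝕜) × (Fin k → ℤ))),
      (∀ s ∈ S, ∃ (c : ∀ i, W i → Fin m) (a : Fin k → ℤ → Fin m)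
        (B R : Finset 𝕜), B.card ≤ m ∧ R.card ≤ m ∧
        ∀ (ω : Ω) (w : ∀ i, W i) (x : 𝕜) (z : Fin k → ℤ), ∃ p : List X, p.length ≤ m ∧
          ∃ q ∈ K, ∃ t ∈ R, ∃ e : 𝕜, |e| = 1 ∧ ∀ ω' : Ω, pre n ω.1 = pre n ω'.1 →
          ∀ w' : ∀ i, W i, (∀ i, c i (w i) = c i (w' i)) → ∀ x' : 𝕜, CellK B x x' →
            ∀ z' : Fin k → ℤ, (∀ j, a j (z j) = a j (z' j)) → Near r z z' →
            ((ρ s ((ω', w', x'), z')).1.1 : ℕ → X) = rep p n ω' ∧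
              (ρ s ((ω', w', x'), z')).1.2 = (fun i => (T i ^ q.1 i) (w' i), e * x' + t) ∧
              (ρ s ((ω', w', x'), z')).2 = z' + q.2) →
      ∀ g ∈ N, ρ g = 1 := by
  classical
  let K₀ : Set (FreeGroup X × (Fin k₀ → ℤ) × (Fin k → ℤ)) := insert (1, 0, 0)
    ((fun a : (List X × List X) × (Fin k₀ → ℤ) × (Fin k → ℤ) =>
      (pw a.1.1 * (pw a.1.2)⁻¹, a.2)) '' (({l | l.length ≤ m} ×ˢ {l | l.length ≤ n}) ×ˢ K))
  have hK₀ : K₀.Finite :=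
    ((((List.finite_length_le X m).prod (List.finite_length_le X n)).prod hK).image _).insert _
  obtain ⟨N, h1, h2, h3⟩ := hHL G hG S hS (FreeGroup X) (fun E hE => ad_free_fin X E hE)
    k₀ k (m + 1) r K₀ hK₀
  refine ⟨N, h1, h2, ?_⟩
  intro 𝕜 _ _ _ Ω hd W T ρ hρ
  let Y : Type := ((∀ i, W i) × 𝕜) × (Fin k → ℤ)
  let E : ((Ω × (∀ i, W i) × 𝕜) × (Fin k → ℤ)) ≃ Ω × Y :=
    { toFun := fun v => (v.1.1, (v.1.2, v.2))
      invFun := fun v => ((v.1, v.2.1), v.2.2)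
      left_inv := fun v => rfl
      right_inv := fun v => rfl }
  let ρ' : G →* Equiv.Perm (Ω × Y) := (E.permCongrHom.toMonoidHom).comp ρ
  have hρ' : ∀ g ω w x z, ρ' g (ω, ((w, x), z)) =
      ((ρ g ((ω, w, x), z)).1.1, ((ρ g ((ω, w, x), z)).1.2, (ρ g ((ω, w, x), z)).2)) := by
    intro g ω w x z
    rfl
  obtain ⟨U, hact, j₀, Φ, hU, hΦ1, hout, hin⟩ := emb_words hd hG S hS n ρ' (by
    rintro s hs ⟨ω, ⟨w, x⟩, z⟩
    obtain ⟨c, a, B, R, -, -, h⟩ := hρ s hs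
    obtain ⟨p, -, q, -, t, -, e, -, h⟩ := h ω w x z
    refine ⟨p, ?_⟩
    rintro ⟨ω', y'⟩ hω hy
    have hy : y' = ((w, x), z) := hy
    subst hy
    have e1 := h ω' hω w (fun _ => rfl) x (fun _ _ => ⟨Iff.rfl, Iff.rfl⟩) z (fun _ => rfl)
      (near_refl r z)
    have e2 := h ω rfl w (fun _ => rfl) x (fun _ _ => ⟨Iff.rfl, Iff.rfl⟩) z (fun _ => rfl)
      (near_refl r z)
    rw [hρ', hρ']
    exact ⟨e1.1, Prod.ext (e1.2.1.trans e2.2.1.symm) (e1.2.2.trans e2.2.2.symm)⟩)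
  let F : ((U × (∀ i, W i) × 𝕜) × (Fin k → ℤ)) ≃ U × Y :=
    { toFun := fun v => (v.1.1, (v.1.2, v.2))
      invFun := fun v => ((v.1, v.2.1), v.2.2)
      left_inv := fun v => rfl
      right_inv := fun v => rfl }
  let Ψ : G →* Equiv.Perm ((U × (∀ i, W i) × 𝕜) × (Fin k → ℤ)) :=
    (F.symm.permCongrHom.toMonoidHom).comp Φ
  have hΨ : ∀ g u w x z, Ψ g ((u, w, x), z) = F.symm (Φ g (u, ((w, x), z))) := by
    intro g u w x z
    rfl
  intro g hg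
  have hΨg : Ψ g = 1 := by
    refine h3 𝕜 U hU W T Ψ ?_ g hg
    intro s hs
    obtain ⟨c, a, B, R, hB, hR, h⟩ := hρ s hs
    refine ⟨fun i w => (c i w).castSucc, fun i w => (a i w).castSucc, B, insert 0 R, by omega,
      (Finset.card_insert_le _ _).trans (by omega), fun u w x z => ?_⟩
    by_cases hu : u ∈ Set.range j₀
    · obtain ⟨ω, rfl⟩ := hu
      obtain ⟨p, hp, q, hq, t, ht, e, he, h4⟩ := h ω.1 w x z
      refine ⟨(pw p * (pw (pre n ω.1.1))⁻¹, q), Or.inr ⟨((p, pre n ω.1.1), q),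
        ⟨⟨hp, (pre_length n _).le⟩, hq⟩, rfl⟩, t, Finset.mem_insert_of_mem ht, e, he,
        fun w' hw x' hx z' hz hn => ?_⟩
      have h5 := h4 ω.1 rfl w' (fun i => Fin.castSucc_injective _ (hw i)) x' hx z'
        (fun i => Fin.castSucc_injective _ (hz i)) hn
      rw [hΨ, hin s ω ((w', x'), z') p h5.1]
      rw [hρ', h5.2.1, h5.2.2]
      rfl
    · refine ⟨(1, 0, 0), Or.inl rfl, 0, Finset.mem_insert_self _ _, 1, abs_one,
        fun w' _ x' _ z' _ _ => ?_⟩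
      rw [hΨ, hout s u _ hu]
      refine Prod.ext (Prod.ext (one_smul _ u).symm (Prod.ext ?_ ?_)) ?_
      · funext i
        change w' i = (T i ^ (0 : ℤ)) (w' i)
        rw [zpow_zero]
        rfl
      · change x' = 1 * x' + 0
        rw [one_mul, add_zero]
      · change z' = z' + 0
        rw [add_zero]
  have hΦg : Φ g = 1 := by
    apply Equiv.ext
    rintro ⟨u, ⟨w, x⟩, z⟩
    have e1 := Equiv.congr_fun hΨg ((u, w, x), z)
    rw [hΨ] at e1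
    exact F.symm.injective e1
  have hρg := hΦ1 g hΦg
  apply Equiv.ext
  rintro ⟨⟨ω, w, x⟩, z⟩
  have e1 := Equiv.congr_fun hρg (ω, ((w, x), z))
  exact E.injective e1

end Vale.Agent.P192.H823.HW
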