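import Vale.Agent.P192.H794.F.G7

/-!
# P192: actions on infinite words times a set as parts of free actions
-/

namespace Vale.Agent.P192.H823.HW

open Vale.Agent.P192.H567
open Vale.Agent.P192.H176 (tailSetoid cp)
open Vale.Agent.P192.H794.F (Loc loc_all aper_tail)

/-- **Infinite words times a set, embedded in a free action times the set.** -/
theorem emb_words {X : Type} {Ω : Set (ℕ → X)}
    (hd : ∀ ξ ∈ Ω, ∀ n, ∃ ξ' ∈ Ω, Aper ξ' ∧ ∀ i < n, ξ' i = ξ i) {Y : Type}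
    {G : Type} [Group G] (hG : ∀ x : G, IsOfFinOrder x) (S : Set G)
    (hS : Subgroup.closure S = ⊤) (m : ℕ) (ρ : G →* Equiv.Perm (Ω × Y))
    (hρ : ∀ s ∈ S, ∀ z : Ω × Y, ∃ p : List X, ∀ z' : Ω × Y, pre m z.1.1 = pre m z'.1.1 →
      z'.2 = z.2 → ((ρ s z').1 : ℕ → X) = rep p m z'.1 ∧ (ρ s z').2 = (ρ s z).2) :
    ∃ (U : Type) (_ : MulAction (FreeGroup X) U) (j₀ : {ω : Ω // Aper ω.1} → U)
      (Φ : G →* Equiv.Perm (U × Y)), (∀ (l : FreeGroup X) (u : U), l • u = u → l = 1) ∧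
      (∀ g, Φ g = 1 → ρ g = 1) ∧ (∀ g u y, u ∉ Set.range j₀ → Φ g (u, y) = (u, y)) ∧
      ∀ (g : G) (ω : {ω : Ω // Aper ω.1}) (y : Y) (p : List X),
        ((ρ g (ω.1, y)).1 : ℕ → X) = rep p m ω.1 →
        Φ g (j₀ ω, y) = ((pw p * (pw (pre m ω.1.1))⁻¹) • j₀ ω, (ρ g (ω.1, y)).2) := by
  classical
  have hloc : ∀ g, Loc (ρ g) := loc_all hG S hS ρ (by
    intro s hs z
    obtain ⟨p, h⟩ := hρ s hs z
    refine ⟨m, p.length, fun ω' hω => ?_⟩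
    have e1 := h (ω', z.2) (pre_congr hω).symm rfl
    have e2 := h z rfl rfl
    refine ⟨e1.2, fun i hi => ?_, fun i => ?_⟩
    · rw [e1.1, e2.1, rep_lt hi, rep_lt hi]
    · rw [e1.1, rep_ge])
  -- the aperiodic words
  let Ωa : Type := {ω : Ω // Aper ω.1}
  let _ : MulAction G (Ω × Y) := MulAction.compHom _ ρ
  let ι : Ωa × Y → Ω × Y := fun z => (z.1.1, z.2)
  have hι : Function.Injective ι := by
    rintro ⟨ω, z⟩ ⟨ω', z'⟩ h
    have e1 : ω = ω' := Subtype.ext (congrArg Prod.fst h)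
    have e2 : z = z' := congrArg Prod.snd h
    rw [e1, e2]
  have hinv : ∀ (g : G) (y : Ωa × Y), ∃ y', ι y' = g • ι y := by
    rintro g ⟨⟨ω, hω⟩, y⟩
    have h1 : Aper (ρ g (ω, y)).1.1 := by
      obtain ⟨n, a, h⟩ := hloc g (ω, y)
      exact aper_tail hω (h ω (fun _ _ => rfl)).2.2
    exact ⟨(⟨(ρ g (ω, y)).1, h1⟩, (ρ g (ω, y)).2), rfl⟩
  obtain ⟨inst, hinst⟩ := exists_restrict ι hι hinv
  let Φ₀ : G →* Equiv.Perm (Ωa × Y) := MulAction.toPermHom G _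
  have hΦ₀ : ∀ g z, ι (Φ₀ g z) = ρ g (ι z) := fun g z => hinst g z
  have hΦ1 : ∀ g z, (Φ₀ g z).1.1 = (ρ g (z.1.1, z.2)).1 := fun g z => congrArg Prod.fst (hΦ₀ g z)
  have hΦ2 : ∀ g z, (Φ₀ g z).2 = (ρ g (z.1.1, z.2)).2 := fun g z => congrArg Prod.snd (hΦ₀ g z)
  let S' := tailSetoid (fun ω : Ωa => ω.1.1)
  let U : Type := Quotient S' × FreeGroup X
  let _ : MulAction (FreeGroup X) U := cp (Quotient S') X
  let rp : Ωa → Ωa := fun ω => (Quotient.mk S' ω).out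
  have hrp : ∀ ω : Ωa, ∃ a b, Tail ω.1.1 (rp ω).1.1 a b := by
    intro ω
    obtain ⟨a, b, h⟩ := Quotient.mk_out (s := S') ω
    exact ⟨b, a, fun i => (h i).symm⟩
  let j₀ : Ωa → U := fun ω => (Quotient.mk S' ω, kap (rp ω).1.1 ω.1.1)
  have hj₀ : Function.Injective j₀ := by
    intro ω ω' h
    have e1 : Quotient.mk S' ω = Quotient.mk S' ω' := congrArg Prod.fst h
    have e2 : kap (rp ω).1.1 ω.1.1 = kap (rp ω').1.1 ω'.1.1 := congrArg Prod.snd h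
    have e3 : rp ω = rp ω' := by
      change (Quotient.mk S' ω).out = (Quotient.mk S' ω').out
      rw [e1]
    obtain ⟨a, b, h1⟩ := hrp ω
    obtain ⟨a', b', h2⟩ := hrp ω'
    rw [← e3] at e2 h2
    exact Subtype.ext (Subtype.ext (kap_inj (rp ω).2 h1 h2 e2))
  let j : Ωa × Y → U × Y := fun z => (j₀ z.1, z.2)
  have hj : Function.Injective j := by
    rintro ⟨ω, z⟩ ⟨ω', z'⟩ h
    have e2 : j₀ ω = j₀ ω' := congrArg Prod.fst h
    have e3 : z = z' := congrArg Prod.snd h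
    rw [hj₀ e2, e3]
  let f := Equiv.ofInjective j hj
  let Φ : G →* Equiv.Perm (U × Y) := (Equiv.Perm.extendDomainHom f).comp Φ₀
  have hin : ∀ g z, Φ g (j z) = j (Φ₀ g z) := by
    intro g z
    exact Equiv.Perm.extendDomain_apply_image (Φ₀ g) f z
  have hout : ∀ g y, y ∉ Set.range j → Φ g y = y := by
    intro g y hy
    exact Equiv.Perm.extendDomain_apply_not_subtype (Φ₀ g) f hy
  refine ⟨U, inferInstance, j₀, Φ, ?_, ?_, ?_, ?_⟩
  · intro l u h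
    have h1 : l * u.2 = u.2 := congrArg Prod.snd h
    exact mul_eq_right.1 h1
  · intro g hg
    have h4 : ∀ z, Φ₀ g z = z := fun z => hj (by rw [← hin, hg]; rfl)
    apply Equiv.ext
    rintro ⟨ω, y⟩
    obtain ⟨n, a, h5⟩ := hloc g (ω, y)
    obtain ⟨ξ', hξ, h6, h7⟩ := hd ω.1 ω.2 (n + a)
    have h8 : ρ g (⟨ξ', hξ⟩, y) = (⟨ξ', hξ⟩, y) := by
      have := hΦ₀ g (⟨⟨ξ', hξ⟩, h6⟩, y)
      rw [h4] at this
      exact this.symm
    obtain ⟨e1, e2, e3⟩ := h5 ⟨ξ', hξ⟩ (fun i hi => h7 i (by omega))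
    change (ρ g (⟨ξ', hξ⟩, y)).2 = _ at e1
    change ∀ i < a, (ρ g (⟨ξ', hξ⟩, y)).1.1 i = _ at e2
    change ∀ i, (ρ g (⟨ξ', hξ⟩, y)).1.1 (a + i) = _ at e3
    rw [h8] at e1 e2 e3
    have e4 : a = n := h6 a n e3
    subst e4
    obtain ⟨-, -, e5⟩ := h5 ω (fun _ _ => rfl)
    refine Prod.ext (Subtype.ext (funext fun i => ?_)) e1.symm
    by_cases hi : i < a
    · exact (e2 i hi).symm.trans (h7 i (by omega))
    · obtain ⟨d, rfl⟩ := Nat.exists_eq_add_of_le (not_lt.1 hi)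
      exact e5 d
  · intro g u y hu
    refine hout g (u, y) ?_
    rintro ⟨⟨ω, y₁⟩, e⟩
    exact hu ⟨ω, congrArg Prod.fst e⟩
  · intro g ω y p hp
    change Φ g (j (ω, y)) = _
    rw [hin]
    have e2 : (Φ₀ g (ω, y)).1.1.1 = rep p m ω.1.1 := by
      rw [hΦ1]
      exact hp
    obtain ⟨a, b, h6⟩ := hrp ω
    have e3 : Quotient.mk S' (Φ₀ g (ω, y)).1 = Quotient.mk S' ω := by
      apply Quotient.sound
      change ∃ a b, Tail (Φ₀ g (ω, y)).1.1.1 ω.1.1 a b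
      rw [e2]
      exact ⟨p.length, m, fun i => rep_ge p m ω.1.1 i⟩
    have e4 : rp (Φ₀ g (ω, y)).1 = rp ω := by
      change (Quotient.mk S' (Φ₀ g (ω, y)).1).out = (Quotient.mk S' ω).out
      rw [e3]
    refine Prod.ext (Prod.ext e3 ?_) (hΦ2 g _)
    change kap (rp (Φ₀ g (ω, y)).1).1.1 (Φ₀ g (ω, y)).1.1.1 =
      pw p * (pw (pre m ω.1.1))⁻¹ * kap (rp ω).1.1 ω.1.1
    rw [e4, e2, kap_rep (rp ω).2 h6]

end Vale.Agent.P192.H823.HW
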