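import Vale.Agent.P192.H823.HW
import Vale.Agent.P192.H176.Hd4
import Vale.Agent.P192.H176.Hd8

/-!
# P192: heads, infinite words, counters, line: plug
-/

namespace Vale.Agent.P192.H823.HW

open Vale.Agent.P192.H479 (CellK)
open Vale.Agent.P192.H567
open Vale.Agent.P192.H176.Hd (Near)

/-- heads, free action, counters, line -/
theorem headsLineS : HeadsLineS := by
  intro G _ _ hG S hS L _ hL k₀ k m r K hK
  obtain ⟨N, h1, h2, h3⟩ := Vale.Agent.P192.H176.Hd.hl_uniformS L _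
    (Vale.Agent.P192.H176.Hd.unifP_free L hL) G hG S hS k₀ k m r K hK
  refine ⟨N, h1, h2, ?_⟩
  intro 𝕜 _ _ _ U _ hU W T ρ hρ g hg
  exact h3 𝕜 U hU W T ρ hρ g hg

/-- **Heads, infinite words, counters, line: the uniform theorem.** -/
theorem heads_wordsS (G : Type) [Group G] [Group.IsFinitelyPresented G]
    (hG : ∀ x : G, IsOfFinOrder x) (S : Set G) (hS : Subgroup.closure S = ⊤)
    (X : Type) [Finite X] (k₀ k m n r : ℕ) (K : Set ((Fin k₀ → ℤ) × (Fin k → ℤ)))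
    (hK : K.Finite) :
    ∃ N : Subgroup G, N.Normal ∧ N.FiniteIndex ∧
      ∀ (𝕜 : Type) [Field 𝕜] [LinearOrder 𝕜] [IsStrictOrderedRing 𝕜] (Ω : Set (ℕ → X)),
      (∀ ξ ∈ Ω, ∀ n, ∃ ξ' ∈ Ω, Aper ξ' ∧ ∀ i < n, ξ' i = ξ i) →
      ∀ (W : Fin k₀ → Type) (T : ∀ i, Equiv.Perm (W i))
        (ρ : G →* Equiv.Perm ((Ω × (∀ i, W i) × 𝕜) × (Fin k → ℤ))),
      (∀ s ∈ S, ∃ (c : ∀ i, W i → Fin m) (a : Fin k → ℤ → Fin m)
        (B R : Finset 𝕜), B.card ≤ m ∧ R.card ≤ m ∧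
        ∀ (ω : Ω) (w : ∀ i, W i) (x : 𝕜) (z : Fin k → ℤ), ∃ p : List X, p.length ≤ m ∧
          ∃ q ∈ K, ∃ t ∈ R, ∃ e : 𝕜, |e| = 1 ∧ ∀ ω' : Ω, pre n ω.1 = pre n ω'.1 →
          ∀ w' : ∀ i, W i, (∀ i, c i (w i) = c i (w' i)) → ∀ x' : 𝕜, CellK B x x' →
            ∀ z' : Fin k → ℤ, (∀ j, a j (z j) = a j (z' j)) → Near r z z' →
            ((ρ s ((ω', w', x'), z')).1.1 : ℕ → X) = rep p n ω' ∧
              (ρ s ((ω', w', x'), z')).1.2 = (fun i => (T i ^ q.1 i) (w' i), e * x' + t) ∧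
              (ρ s ((ω', w', x'), z')).2 = z' + q.2) →
      ∀ g ∈ N, ρ g = 1 :=
  heads_words_of headsLineS G hG S hS X k₀ k m n r K hK

end Vale.Agent.P192.H823.HW
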