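import Vale.Agent.P192.H823.HW0
import Vale.Agent.P192.H291.Unif3

/-!
# P192: heads, two infinite words, counters
-/

namespace Vale.Agent.P192.H823.HW

open Vale.Agent.P192.H567

theorem rep_pre_self {X : Type} (m : ℕ) (ξ : ℕ → X) : rep (pre m ξ) m ξ = ξ := by
  funext i
  by_cases hi : i < m
  · rw [rep_lt (by rw [pre_length]; exact hi)]
    simp [pre]
  · obtain ⟨d, rfl⟩ := Nat.exists_eq_add_of_le (not_lt.1 hi)
    have := rep_ge (pre m ξ) m ξ d
    rw [pre_length] at this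
    exact this

/-- **Heads, two infinite words, counters: the uniform theorem.** -/
theorem heads_words_words (G : Type) [Group G] [Group.IsFinitelyPresented G]
    (hG : ∀ x : G, IsOfFinOrder x) (S : Set G) (hS : Subgroup.closure S = ⊤)
    (X X' : Type) [Finite X] [Finite X'] (h k m n r : ℕ)
    (K : Set ((Fin h → ℤ) × (Fin k → ℤ))) (hK : K.Finite) :
    ∃ N : Subgroup G, N.Normal ∧ N.FiniteIndex ∧
      ∀ (P : Set (ℕ → X)) (Q : Set (ℕ → X')),
      (∀ ξ ∈ P, ∀ n, ∃ ξ' ∈ P, Aper ξ' ∧ ∀ i < n, ξ' i = ξ i) →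
      (∀ ξ ∈ Q, ∀ n, ∃ ξ' ∈ Q, Aper ξ' ∧ ∀ i < n, ξ' i = ξ i) →
      ∀ (W : Fin h → Type) (T : ∀ i, Equiv.Perm (W i)) (Z : Type) (τ : Equiv.Perm Z)
        (ρ : G →* Equiv.Perm ((P × (∀ i, W i) × Q) × (Fin k → Z))),
      (∀ g, (g ∈ S ∨ g⁻¹ ∈ S) → ∃ (a : ∀ i, W i → Fin m) (c : Fin k → Z → Fin m),
        ∀ (ξ : P) (w : ∀ i, W i) (η : Q) (z : Fin k → Z), ∃ p : List X, p.length ≤ m ∧
          ∃ p' : List X', p'.length ≤ m ∧ ∃ q ∈ K, ∀ ξ' : P, pre n ξ.1 = pre n ξ'.1 →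
          ∀ w' : ∀ i, W i, (∀ i, a i (w i) = a i (w' i)) → ∀ η' : Q, pre n η.1 = pre n η'.1 →
          ∀ z' : Fin k → Z, (∀ j, c j (z j) = c j (z' j)) →
            (∀ i j (d : ℤ), |d| ≤ r → ((τ ^ d) (z i) = z j ↔ (τ ^ d) (z' i) = z' j)) →
            ((ρ g ((ξ', w', η'), z')).1.1 : ℕ → X) = rep p n ξ' ∧
              (ρ g ((ξ', w', η'), z')).1.2.1 = (fun i => (T i ^ q.1 i) (w' i)) ∧
              ((ρ g ((ξ', w', η'), z')).1.2.2 : ℕ → X') = rep p' n η' ∧
              (ρ g ((ξ', w', η'), z')).2 = fun j => (τ ^ q.2 j) (z' j)) →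
      ∀ g ∈ N, ρ g = 1 := by
  classical
  let ι₀ : ((List X × List X) × (List X' × List X')) × (Fin h → ℤ) × (Fin k → ℤ) →
      FreeGroup X × (Fin h → ℤ) × FreeGroup X' × (Fin k → ℤ) := fun a =>
    (pw a.1.1.1 * (pw a.1.1.2)⁻¹, a.2.1, pw a.1.2.1 * (pw a.1.2.2)⁻¹, a.2.2)
  let K₀ : Set (FreeGroup X × (Fin h → ℤ) × FreeGroup X' × (Fin k → ℤ)) := insert (1, 0, 1, 0)
    (ι₀ '' ((({l | l.length ≤ m} ×ˢ {l | l.length ≤ n}) ×ˢ
      ({l | l.length ≤ m} ×ˢ {l | l.length ≤ n})) ×ˢ K))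
  have hK₀ : K₀.Finite :=
    (((((List.finite_length_le X m).prod (List.finite_length_le X n)).prod
      ((List.finite_length_le X' m).prod (List.finite_length_le X' n))).prod hK).image _).insert _
  have hfin : Finite {l : List X' // l.length = n} :=
    Set.Finite.to_subtype (List.finite_length_eq X' n)
  -- codes of the words of length `n`
  let m' : ℕ := m + (Nat.card {l : List X' // l.length = n} + 1)
  let code : {l : List X' // l.length = n} → Fin m' := fun l =>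
    ⟨(Finite.equivFin {l : List X' // l.length = n} l).val + 1, by
      have := (Finite.equivFin {l : List X' // l.length = n} l).isLt
      omega⟩
  let z₀ : Fin m' := ⟨0, by omega⟩
  have hcode : Function.Injective code := by
    intro l l' hl
    have h1 : (Finite.equivFin {l : List X' // l.length = n} l).val + 1 =
      (Finite.equivFin {l : List X' // l.length = n} l').val + 1 := congrArg Fin.val hl
    exact (Finite.equivFin _).injective (Fin.ext (by omega))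
  have hmm : m ≤ m' := Nat.le_add_right _ _
  obtain ⟨n₀, ⟨e⟩⟩ := Finite.exists_equiv_fin X'
  have htop : (⊤ : Subgroup (FreeGroup X')).FiniteIndex := inferInstance
  obtain ⟨N, h1, h2, h3⟩ := H291.mh_wt G hG S hS (FreeGroup X) (FreeGroup X')
    (fun E hE => ad_free_fin X E hE) ⊤ n₀
    (Subgroup.topEquiv.trans (FreeGroup.freeGroupCongr e)) h k m' r K₀ hK₀
  refine ⟨N, h1, h2, ?_⟩
  intro P Q hP hQ W T Z τ ρ hρ
  -- first word
  let Y₁ : Type := ((∀ i, W i) × Q) × (Fin k → Z)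
  let E₁ : ((P × (∀ i, W i) × Q) × (Fin k → Z)) ≃ P × Y₁ :=
    { toFun := fun v => (v.1.1, (v.1.2, v.2))
      invFun := fun v => ((v.1, v.2.1), v.2.2)
      left_inv := fun v => rfl
      right_inv := fun v => rfl }
  let ρ₁ : G →* Equiv.Perm (P × Y₁) := (E₁.permCongrHom.toMonoidHom).comp ρ
  have hρ₁ : ∀ g ξ w η z, ρ₁ g (ξ, ((w, η), z)) =
      ((ρ g ((ξ, w, η), z)).1.1, ((ρ g ((ξ, w, η), z)).1.2, (ρ g ((ξ, w, η), z)).2)) := by
    intro g ξ w η z
    rfl
  obtain ⟨U, hact, j, Φ, hU, hΦ1, hout, hin⟩ := emb_words hP hG S hS n ρ₁ (by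
    rintro s hs ⟨ξ, ⟨w, η⟩, z⟩
    obtain ⟨a, c, h⟩ := hρ s (Or.inl hs)
    obtain ⟨p, -, p', -, q, -, h⟩ := h ξ w η z
    refine ⟨p, ?_⟩
    rintro ⟨ξ', y'⟩ hξ hy
    have hy : y' = ((w, η), z) := hy
    subst hy
    have e1 := h ξ' hξ w (fun _ => rfl) η rfl z (fun _ => rfl) (fun _ _ _ _ => Iff.rfl)
    have e2 := h ξ rfl w (fun _ => rfl) η rfl z (fun _ => rfl) (fun _ _ _ _ => Iff.rfl)
    rw [hρ₁, hρ₁]
    exact ⟨e1.1, Prod.ext (Prod.ext (e1.2.1.trans e2.2.1.symm)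
      (Subtype.ext (e1.2.2.1.trans e2.2.2.1.symm))) (e1.2.2.2.trans e2.2.2.2.symm)⟩)
  -- second word
  let Y₂ : Type := (U × (∀ i, W i)) × (Fin k → Z)
  let E₂ : (U × Y₁) ≃ Q × Y₂ :=
    { toFun := fun v => (v.2.1.2, ((v.1, v.2.1.1), v.2.2))
      invFun := fun v => (v.2.1.1, ((v.2.1.2, v.1), v.2.2))
      left_inv := fun v => rfl
      right_inv := fun v => rfl }
  let ρ₂ : G →* Equiv.Perm (Q × Y₂) := (E₂.permCongrHom.toMonoidHom).comp Φ
  have hρ₂ : ∀ g η u w z, ρ₂ g (η, ((u, w), z)) = E₂ (Φ g (u, ((w, η), z))) := by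
    intro g η u w z
    rfl
  -- the action of the generators on the set with one word
  have hg2 : ∀ (g : G) (u : U) (hu : u ∉ Set.range j) (η : Q) (w : ∀ i, W i) (z : Fin k → Z),
      ρ₂ g (η, ((u, w), z)) = (η, ((u, w), z)) := by
    intro g u hu η w z
    rw [hρ₂, hout g u _ hu]
    rfl
  have hg3 : ∀ (g : G) (ξ : {ξ : P // Aper ξ.1}) (η : Q) (w : ∀ i, W i) (z : Fin k → Z)
      (p : List X), ((ρ g ((ξ.1, w, η), z)).1.1 : ℕ → X) = rep p n ξ.1 →
      ρ₂ g (η, ((j ξ, w), z)) = ((ρ g ((ξ.1, w, η), z)).1.2.2,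
        (((pw p * (pw (pre n ξ.1.1))⁻¹) • j ξ, (ρ g ((ξ.1, w, η), z)).1.2.1),
          (ρ g ((ξ.1, w, η), z)).2)) := by
    intro g ξ η w z p hp
    rw [hρ₂, hin g ξ ((w, η), z) p hp]
    rfl
  obtain ⟨V, hact', j', Φ', hV, hΦ1', hout', hin'⟩ := emb_words hQ hG S hS n ρ₂ (by
    rintro s hs ⟨η, ⟨u, w⟩, z⟩
    by_cases hu : u ∈ Set.range j
    · obtain ⟨ξ, rfl⟩ := hu
      obtain ⟨a, c, h⟩ := hρ s (Or.inl hs)
      obtain ⟨p, -, p', -, q, -, h⟩ := h ξ.1 w η z
      refine ⟨p', ?_⟩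
      rintro ⟨η', y'⟩ hη hy
      have hy : y' = ((j ξ, w), z) := hy
      subst hy
      have e1 := h ξ.1 rfl w (fun _ => rfl) η' hη z (fun _ => rfl) (fun _ _ _ _ => Iff.rfl)
      have e2 := h ξ.1 rfl w (fun _ => rfl) η rfl z (fun _ => rfl) (fun _ _ _ _ => Iff.rfl)
      rw [hg3 s ξ η' w z p e1.1, hg3 s ξ η w z p e2.1]
      refine ⟨e1.2.2.1, ?_⟩
      change (((pw p * (pw (pre n ξ.1.1))⁻¹) • j ξ, (ρ s ((ξ.1, w, η'), z)).1.2.1),
          (ρ s ((ξ.1, w, η'), z)).2) = (((pw p * (pw (pre n ξ.1.1))⁻¹) • j ξ,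
          (ρ s ((ξ.1, w, η), z)).1.2.1), (ρ s ((ξ.1, w, η), z)).2)
      rw [e1.2.1, e2.2.1, e1.2.2.2, e2.2.2.2]
    · refine ⟨pre n η.1, ?_⟩
      rintro ⟨η', y'⟩ hη hy
      have hy : y' = ((u, w), z) := hy
      subst hy
      rw [hg2 s u hu, hg2 s u hu]
      refine ⟨?_, rfl⟩
      have hη : pre n η.1 = pre n η'.1 := hη
      rw [hη]
      exact (rep_pre_self n η'.1).symm)
  let F : ((U × (∀ i, W i) × V) × (Fin k → Z)) ≃ V × Y₂ :=
    { toFun := fun v => (v.1.2.2, ((v.1.1, v.1.2.1), v.2))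
      invFun := fun v => ((v.2.1.1, v.2.1.2, v.1), v.2.2)
      left_inv := fun v => rfl
      right_inv := fun v => rfl }
  let Ψ : G →* Equiv.Perm ((U × (∀ i, W i) × V) × (Fin k → Z)) :=
    (F.symm.permCongrHom.toMonoidHom).comp Φ'
  have hΨ : ∀ g u w v z, Ψ g ((u, w, v), z) = F.symm (Φ' g (v, ((u, w), z))) := by
    intro g u w v z
    rfl
  intro g hg
  have hΨg : Ψ g = 1 := by
    refine h3 U V Z W T τ hU hV Ψ ?_ g hg
    intro s hs
    obtain ⟨a, c, hac⟩ := hρ s hs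
    let a' : ∀ i, W i → Fin m' := fun i w => Fin.castLE hmm (a i w)
    let c' : Fin k → Z → Fin m' := fun i w => Fin.castLE hmm (c i w)
    let cη : {η : Q // Aper η.1} → Fin m' := fun η => code ⟨pre n η.1.1, pre_length n _⟩
    let b : V → Fin m' := fun v => if H : ∃ η, j' η = v then cη H.choose else z₀
    let pt : (Fin k → Z) → Fin k → Fin k → ℤ → Prop := fun z i l d =>
      |d| ≤ (r : ℤ) ∧ (τ ^ d) (z i) = z l
    have key : ∀ (u : U) (α : Fin h → Fin m') (β : Fin m') (γ : Fin k → Fin m')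
        (o : Fin k → Fin k → ℤ → Prop), ∃ x ∈ K₀, ∀ w v z, (fun i => a' i (w i)) = α → b v = β →
          (fun i => c' i (z i)) = γ → pt z = o →
            Ψ s ((u, w, v), z) = ((x.1 • u, (fun i => (T i ^ x.2.1 i) (w i)), x.2.2.1 • v),
              fun i => (τ ^ x.2.2.2 i) (z i)) := by
      intro u α β γ o
      have triv : ∀ w v z, Ψ s ((u, w, v), z) = ((u, w, v), z) → Ψ s ((u, w, v), z) =
          (((1 : FreeGroup X) • u, (fun i => (T i ^ (0 : ℤ)) (w i)), (1 : FreeGroup X') • v),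
              fun i => (τ ^ (0 : ℤ)) (z i)) := by
        intro w v z h4
        rw [h4, one_smul, one_smul]
        simp
      have hvout : ∀ w v z, v ∉ Set.range j' → Ψ s ((u, w, v), z) = ((u, w, v), z) := by
        intro w v z hv
        rw [hΨ, hout' s v _ hv]
        rfl
      by_cases hu : u ∈ Set.range j
      · obtain ⟨ξ, rfl⟩ := hu
        by_cases hη : ∃ (η : {η : Q // Aper η.1}) (w : ∀ i, W i) (z : Fin k → Z),
          (fun i => a' i (w i)) = α ∧ cη η = β ∧ (fun i => c' i (z i)) = γ ∧ pt z = o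
        · obtain ⟨η, w, z, e1, e2, e3, e4⟩ := hη
          obtain ⟨p, hp, p', hp', q, hq, h4⟩ := hac ξ.1 w η.1 z
          refine ⟨ι₀ (((p, pre n ξ.1.1), (p', pre n η.1.1)), q), Or.inr
            ⟨(((p, pre n ξ.1.1), (p', pre n η.1.1)), q), ⟨⟨⟨hp,
            (pre_length n _).le⟩, ⟨hp', (pre_length n _).le⟩⟩, hq⟩, rfl⟩, ?_⟩
          intro w' v' z' f1 f2 f3 f4
          have hv : ∃ η, j' η = v' := by
            by_contra hv
            have f5 : b v' = z₀ := dif_neg hv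
            have f6 : 0 = (Finite.equivFin {l : List X' // l.length = n}
              ⟨pre n η.1.1, pre_length n _⟩).val + 1 :=
              congrArg Fin.val ((f5.symm.trans f2).trans e2.symm)
            omega
          have f5 : b v' = cη hv.choose := dif_pos hv
          set η' := hv.choose with hη'
          have f6 : j' η' = v' := hv.choose_spec
          have f7 : pre n η'.1.1 = pre n η.1.1 :=
            congrArg Subtype.val (hcode ((f5.symm.trans f2).trans e2.symm))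
          have f8 : ∀ i, a i (w i) = a i (w' i) := fun i =>
            Fin.castLE_injective hmm (congrFun (e1.trans f1.symm) i)
          have f9 : ∀ i, c i (z i) = c i (z' i) := fun i =>
            Fin.castLE_injective hmm (congrFun (e3.trans f3.symm) i)
          have f10 : ∀ i l (d : ℤ), |d| ≤ r → ((τ ^ d) (z i) = z l ↔ (τ ^ d) (z' i) = z' l) := by
            intro i l d hd
            have f11 : pt z i l d = pt z' i l d := by rw [e4, f4]
            have f12 : (|d| ≤ (r : ℤ) ∧ (τ ^ d) (z i) = z l) ↔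
              (|d| ≤ (r : ℤ) ∧ (τ ^ d) (z' i) = z' l) := iff_of_eq f11
            exact ⟨fun f => (f12.1 ⟨hd, f⟩).2, fun f => (f12.2 ⟨hd, f⟩).2⟩
          obtain ⟨g1, g2, g3, g4⟩ := h4 ξ.1 rfl w' f8 η'.1 f7.symm z' f9 f10
          have g5 := hg3 s ξ η'.1 w' z' p g1
          have g6 := hin' s η' ((j ξ, w'), z') p' (by rw [g5]; exact g3)
          rw [← f6, hΨ, g6, g5, g2, g4, f7]
          rfl
        · refine ⟨(1, 0, 1, 0), Or.inl rfl, ?_⟩
          intro w' v' z' f1 f2 f3 f4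
          refine triv _ _ _ (hvout _ _ _ ?_)
          intro hv
          have hv : ∃ η, j' η = v' := hv
          have f5 : b v' = cη hv.choose := dif_pos hv
          exact hη ⟨hv.choose, w', z', f1, f5.symm.trans f2, f3, f4⟩
      · refine ⟨(1, 0, 1, 0), Or.inl rfl, ?_⟩
        intro w' v' z' f1 f2 f3 f4
        refine triv _ _ _ ?_
        by_cases hv : v' ∈ Set.range j'
        · obtain ⟨η, rfl⟩ := hv
          have g5 := hg2 s u hu η.1 w' z'
          have g6 := hin' s η ((u, w'), z') (pre n η.1.1) (by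
            rw [g5]
            exact (rep_pre_self n η.1.1).symm)
          rw [hΨ, g6, g5, mul_inv_cancel, one_smul]
          rfl
        · exact hvout _ _ _ hv
    choose f hf1 hf2 using key
    refine ⟨a', b, c', f, hf1, ?_⟩
    rintro u w v z x rfl
    exact hf2 u _ _ _ _ w v z rfl rfl rfl rfl
  have hΦg : Φ' g = 1 := by
    apply Equiv.ext
    rintro ⟨v, ⟨u, w⟩, z⟩
    have e1 := Equiv.congr_fun hΨg ((u, w, v), z)
    rw [hΨ] at e1
    exact F.symm.injective e1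
  have hρ₂g := hΦ1' g hΦg
  have hΦg : Φ g = 1 := by
    apply Equiv.ext
    rintro ⟨u, ⟨w, η⟩, z⟩
    have e1 := Equiv.congr_fun hρ₂g (η, ((u, w), z))
    rw [hρ₂] at e1
    exact E₂.injective e1
  have hρ₁g := hΦ1 g hΦg
  apply Equiv.ext
  rintro ⟨⟨ξ, w, η⟩, z⟩
  have e1 := Equiv.congr_fun hρ₁g (ξ, ((w, η), z))
  exact E₁.injective e1

end Vale.Agent.P192.H823.HW
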