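import Vale.Agent.P192.H479.RL0
import Vale.Agent.P192.H567.CtUnif

/-!
# P192: the case of two factors without counters

`two : Vale.Agent.P192.H479.Two`, from `ct_uniform` with `k = 0`.
-/

namespace Vale.Agent.P192.H823

open Vale.Agent.P192.H567 in
/-- **The case of two factors, `k = 0` of `TreeProducts (1)`.** -/
theorem two : Vale.Agent.P192.H479.Two := by
  classical
  rintro G _ _ hG M₀ hgen hinv L M _ _ hL ⟨Γ, k₀, hΓ, ⟨e⟩⟩ U V _ _ hU hV ρ KL KM hKL hKM β _ b h
  let KK : Set (L × (Fin 0 → ℤ) × M) := KL ×ˢ ((Set.univ : Set (Fin 0 → ℤ)) ×ˢ KM)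
  have hKK : KK.Finite := hKL.prod (Set.finite_univ.prod hKM)
  have hΓ' : Γ.FiniteIndex := hΓ
  obtain ⟨N, -, hN2, hN3⟩ := ct_uniform G hG M₀ hgen L M hL Γ k₀ e 0 (Nat.card β) KK hKK
  let E : (U × V) ≃ (U × (∀ _ : Fin 0, Unit) × V) :=
    (Equiv.refl U).prodCongr (Equiv.uniqueProd V (∀ _ : Fin 0, Unit)).symm
  let ρ' : G →* Equiv.Perm (U × (∀ _ : Fin 0, Unit) × V) :=
    (E.permCongrHom.toMonoidHom).comp ρ
  have hρ' : ∀ g u (w : ∀ _ : Fin 0, Unit) v, ρ' g (u, w, v) = E (ρ g (u, v)) := by
    intro g u w v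
    rfl
  have key := hN3 U V (fun _ => Unit) (fun i => i.elim0) hU hV ρ' (by
    intro s hs
    have hs' : s ∈ M₀ := by
      rcases hs with hs | hs
      · exact hs
      · rw [← inv_inv s]
        exact hinv _ hs
    choose l hl x hx hlx using h s hs'
    refine ⟨fun i => i.elim0, fun v => Finite.equivFin β (b v),
      fun u _ i => (l u ((Finite.equivFin β).symm i), fun j => j.elim0,
        x u ((Finite.equivFin β).symm i)), ?_, ?_⟩
    · intro u α i
      exact ⟨hl _ _, Set.mem_univ _, hx _ _⟩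
    · intro u w v
      rw [hρ']
      have h1 := hlx u (b v) v rfl
      rw [h1]
      refine Prod.ext ?_ (Prod.ext ?_ ?_)
      · change l u (b v) • u = l u ((Finite.equivFin β).symm (Finite.equivFin β (b v))) • u
        rw [Equiv.symm_apply_apply]
      · funext i
        exact i.elim0
      · change x u (b v) • v = x u ((Finite.equivFin β).symm (Finite.equivFin β (b v))) • v
        rw [Equiv.symm_apply_apply])
  have hle : N ≤ ρ.ker := by
    intro g hg
    have h1 : E.permCongrHom (ρ g) = 1 := key g hg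
    have h2 : ρ g = 1 := (map_eq_one_iff E.permCongrHom E.permCongrHom.injective).1 h1
    exact h2
  have h1 : ρ.ker.FiniteIndex := Subgroup.finiteIndex_of_le hle
  have h2 : Finite (G ⧸ ρ.ker) := Subgroup.finite_quotient_of_finiteIndex
  exact Finite.of_equiv _ (QuotientGroup.quotientKerEquivRange ρ).toEquiv

end Vale.Agent.P192.H823
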